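import Mathlib
import Vale.Agent.P116.G.Out
import Vale.Agent.P116.KF.FL

/-!
# END': the rows

`PtA K P g x`: almost surely the end `x` is mapped to a point.
-/

open Set Filter Topology Metric Bornology MeasureTheory

namespace Vale.Agent.P116.EndP

open H906 PBC Slow KF G

/-- almost surely the end `x` is a point -/
def PtA (K : Set ℂ) {Ω : Type} [MeasurableSpace Ω] (P : Measure Ω) (g : Ω → ℂ → ℂ) (x : ℂ) : Prop :=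
  ∀ᵐ ω ∂P, ∃ a, DiskAt K (g ω) x a 0

/-- ENDP-1: all but countably many ends are almost surely points.
Blueprint: `μ_Re x := ∫ oe K (fun z => clip (re (g ω z) / (24 R) + 1/2)) x ∂P`, the same with `im`
(`meas_oe`, `int_oe_sq` of `KF/H80/A3.lean` with `p = 0`); for finitely many points of different
components the disks are disjoint (`disk_disj`) and inside a bounded ball (`NU.norm_le`), so
`∑ oe ^ 2 ≤ C`, hence `{μ > 0}` is countable; if both are `0` then a.s. the diameters of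
`g ω '' (nd K n x \ K)` tend to `0`, so `r = 0` since `closedBall c r ⊆ kT S (nd K n x)` and
`CMap.Tm_subset_closedBall`. -/
def Endp1 : Prop := ∀ {K : Set ℂ} (_ : IsCompact K) (_ : Full K) {Par : Type}
    {B : Par → ℝ → Set (Set (Set ℂ))} {Ω : Type} [TopologicalSpace Ω] [MeasurableSpace Ω]
    {P : Measure Ω} {g : Ω → ℂ → ℂ} {𝔊 : Ω → Ultrafilter Str} (_ : FSt K B Ω P g 𝔊),
    {c ∈ comps K | ∃ x ∈ c, ¬ PtA K P g x}.Countable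

/-- ENDP-2: shrinking images of nodes: the end is good (copy of the end of `good_of_TPX`). -/
def Endp2 : Prop := ∀ {K : Set ℂ} (_ : IsCompact K) (_ : Full K) {𝔊 : Ultrafilter Str}
    (_ : Fine K (𝔊 : Filter Str)) {g : ℂ → ℂ}
    (_ : TendstoLocallyUniformlyOn (kF fk) g (𝔊 : Filter Str) Kᶜ) {x : ℂ} (_ : x ∈ K)
    (_ : ∀ ε > 0, ∃ n, ∀ᶠ S in (𝔊 : Filter Str), ∀ w₁ ∈ kT fk S (nd K n x),
      ∀ w₂ ∈ kT fk S (nd K n x), dist w₁ w₂ ≤ ε), GoodAt fk K (𝔊 : Filter Str) x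

/-- ENDP-3: the assembly: almost surely points are always good, so some `ω` is good at all ends
(`Endp1`, countably many components, `assembly`). -/
def Endp3 : Prop := ∀ {K : Set ℂ} (_ : IsCompact K) (_ : Full K) {Par : Type}
    {B : Par → ℝ → Set (Set (Set ℂ))} {Ω : Type} [TopologicalSpace Ω] [MeasurableSpace Ω]
    {P : Measure Ω} {g : Ω → ℂ → ℂ} {𝔊 : Ω → Ultrafilter Str} (_ : FSt K B Ω P g 𝔊)
    (_ : ∀ x ∈ K, PtA K P g x → ∀ ω, GoodAt fk K (𝔊 ω : Filter Str) x),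
    (∃ ω, ∀ x ∈ K, GoodAt fk K (𝔊 ω : Filter Str) x) ∧
    ∃ g₀ : ℂ → ℂ, NU Kᶜ g₀ ∧ ∀ w ∉ g₀ '' Kᶜ, ∃ (c : ℂ) (r : ℝ), 0 ≤ r ∧
      connectedComponentIn (g₀ '' Kᶜ)ᶜ w = closedBall c r

/-- ENDP-4: gluing the flattenings in the nodes of level `m` and length-area (`rectH` of 694 with
`Q := nd K m x`). `o P := diam (v w '' (P \ K))` for `P ⊆ w`. The pieces inside a node `w` of level
`m` see only `v w`. -/
def Endp4 : Prop := ∀ {K : Set ℂ} (_ : IsCompact K) (_ : Full K) {R : ℝ} (_ : 0 < R)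
    (_ : lev K 0 ⊆ closedBall 0 R) {x : ℂ} (_ : x ∈ K) {m : ℕ}
    {u ρ : ℂ → ℝ} {ε : ℝ} (_ : 0 ≤ ε) (_ : ContinuousOn u Kᶜ) (_ : ContinuousOn ρ Kᶜ)
    (_ : ∀ z ∈ Kᶜ, 0 ≤ ρ z) (_ : UGr Kᶜ u ρ)
    (_ : ∫⁻ z in Kᶜ, ENNReal.ofReal (ρ z ^ 2) ≤ ENNReal.ofReal ε) {R' : ℝ} (_ : R ≤ R')
    (_ : ∀ z, R' ≤ ‖z‖ → u z ≤ 0) (_ : ∀ z ∈ nd K m x, z ∉ K → 1 / 2 ≤ u z)
    {v : Set ℂ → ℂ → ℝ}
    (_ : ∀ w ∈ nodes K m, w ≠ nd K m x → ContinuousOn (v w) Kᶜ ∧ (∀ z, z ∉ w → v w z = u z) ∧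
      (∀ z ∈ frontier w, v w z = u z) ∧ UGr Kᶜ (v w) ρ ∧ ∃ B, ∀ z ∈ w, z ∉ K → |v w z| ≤ B)
    {S : Str} (_ : G.NS K (lev K 0) S.1) (_ : ∀ P ∈ S.1, P ⊆ lev K m)
    (_ : ∀ y ∈ K, ∃ P ∈ S.1, y ∈ P) {b : Set ℂ → ℝ}
    (_ : ∀ w ∈ nodes K m, w ≠ nd K m x → ∀ J : Finset (Set ℂ), (∀ P ∈ J, P ∈ S.1 ∧ P ⊆ w) →
      ∑ P ∈ J, diam (v w '' (P \ K)) ^ 2 ≤ b w)
    (_ : ∀ J : Finset (Set ℂ), (∀ w ∈ J, w ∈ nodes K m ∧ w ≠ nd K m x) → ∑ w ∈ J, b w ≤ ε),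
    ∀ w₁ ∈ kT fk S (nd K m x), ∀ w₂ ∈ kT fk S (nd K m x),
      dist w₁ w₂ ≤ 20 * (5 * (R' + 1)) * Real.sqrt ε

end Vale.Agent.P116.EndP
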