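import Vale.Agent.P116.KF.H80.EndSpec

/-!
ENDP-2: if the images of the nodes at `x` shrink, the end is good (with radius `0`).
-/

open Set Filter Topology Metric Bornology MeasureTheory

namespace Vale.Agent.P116.EndP

open H906 PBC Slow KF G

theorem endp2 : Endp2 := by
  intro K hK hf 𝔊 hG g hg x hx hs
  obtain ⟨w, hw, hw1⟩ := exists_shadow hK hf hG hg hx
  refine ⟨w, 0, le_rfl, ?_, ?_⟩
  · intro ε hε
    obtain ⟨n, hn⟩ := hs ε hε
    refine ⟨n, ?_⟩
    filter_upwards [hn, hw1 n] with S h1 h2 v hv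
    rw [mem_closedBall, zero_add]
    exact h1 v hv w h2
  · intro z hz
    have hne : g z ≠ w := fun h => hw ⟨z, hz, h⟩
    have h0 : 0 < ‖g z - w‖ := norm_pos_iff.2 (sub_ne_zero.2 hne)
    refine ⟨‖g z - w‖ / 2, by positivity, ?_⟩
    have h1 : Tendsto (fun S => ‖kF fk S z - w‖) 𝔊 (𝓝 ‖g z - w‖) :=
      ((hg.tendsto_at hz).sub_const w).norm
    filter_upwards [h1.eventually (lt_mem_nhds (show ‖g z - w‖ / 2 < ‖g z - w‖ by linarith))]
      with S hS
    rwa [zero_add]

end Vale.Agent.P116.EndP
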