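import Mathlib
import Vale.Agent.P116.H906.NU

/-!
Continuous families of normalized conformal maps: the derivative is jointly continuous.
-/

open Set Filter Topology Metric Bornology MeasureTheory

namespace Vale.Agent.P116.EndP

open H906

variable {Ω : Type*} [TopologicalSpace Ω] {K : Set ℂ} {G : Ω → ℂ → ℂ}

/-- a jointly continuous family converges locally uniformly -/
lemma tlu (hK : IsClosed K) (hc : ContinuousOn (fun p : Ω × ℂ => G p.1 p.2) (univ ×ˢ Kᶜ)) (ω : Ω) :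
    TendstoLocallyUniformlyOn G (G ω) (𝓝 ω) Kᶜ := by
  rw [Metric.tendstoLocallyUniformlyOn_iff]
  intro ε hε z hz
  have h1 : ContinuousAt (fun p : Ω × ℂ => G p.1 p.2) (ω, z) :=
    hc.continuousAt ((isOpen_univ.prod hK.isOpen_compl).mem_nhds ⟨mem_univ _, hz⟩)
  have h2 : ∀ᶠ p : Ω × ℂ in 𝓝 (ω, z), dist (G p.1 p.2) (G ω z) < ε / 2 :=
    Metric.tendsto_nhds.1 h1 (ε / 2) (half_pos hε)
  rw [nhds_prod_eq] at h2
  obtain ⟨A, hA, B, hB, hAB⟩ := eventually_prod_iff.1 h2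
  refine ⟨{y | B y}, mem_nhdsWithin_of_mem_nhds hB, ?_⟩
  filter_upwards [hA] with ω' hω' y hy
  have h3 := hAB hω' hy
  have h4 := hAB hA.self_of_nhds hy
  have h5 := dist_triangle_right (G ω y) (G ω' y) (G ω z)
  dsimp only at h3 h4
  linarith

/-- the derivatives form a jointly continuous family -/
lemma cont_deriv (hK : IsClosed K) (hc : ContinuousOn (fun p : Ω × ℂ => G p.1 p.2) (univ ×ˢ Kᶜ))
    (hd : ∀ ω, DifferentiableOn ℂ (G ω) Kᶜ) :
    ContinuousOn (fun p : Ω × ℂ => deriv (G p.1) p.2) (univ ×ˢ Kᶜ) := by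
  rintro ⟨ω, z⟩ ⟨-, hz⟩
  refine ContinuousAt.continuousWithinAt ?_
  have h1 := (tlu hK hc ω).deriv (Eventually.of_forall hd) hK.isOpen_compl
  have h2 : ContinuousAt (deriv (G ω)) z :=
    ((hd ω).deriv hK.isOpen_compl).continuousOn.continuousAt (hK.isOpen_compl.mem_nhds hz)
  rw [ContinuousAt, Metric.tendsto_nhds]
  intro ε hε
  obtain ⟨t, ht, hev⟩ := Metric.tendstoLocallyUniformlyOn_iff.1 h1 (ε / 2) (half_pos hε) z hz
  rw [hK.isOpen_compl.nhdsWithin_eq hz] at ht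
  have h3 : ∀ᶠ y in 𝓝 z, dist (deriv (G ω) y) (deriv (G ω) z) < ε / 2 :=
    Metric.tendsto_nhds.1 h2 (ε / 2) (half_pos hε)
  rw [nhds_prod_eq]
  filter_upwards [hev.prod_mk (h3.and ht)] with p hp
  have h4 := hp.1 p.2 hp.2.2
  have h5 := hp.2.1
  have h6 := dist_triangle_left (deriv (G p.1) p.2) (deriv (G ω) z) (deriv (G ω) p.2)
  simp only [Function.comp] at h4
  linarith

/-- bounds on compact sets -/
lemma bdd_on [CompactSpace Ω] {f : Ω × ℂ → ℂ} (hc : ContinuousOn f (univ ×ˢ Kᶜ)) {L : Set ℂ}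
    (hL : IsCompact L) (hLK : L ⊆ Kᶜ) : ∃ B : ℝ, 0 ≤ B ∧ ∀ ω, ∀ z ∈ L, ‖f (ω, z)‖ ≤ B := by
  obtain ⟨B, hB⟩ := ((isCompact_univ (X := Ω)).prod hL).exists_bound_of_continuousOn
    (hc.mono (prod_mono_right hLK))
  exact ⟨|B|, abs_nonneg _, fun ω z hz => (hB (ω, z) ⟨mem_univ _, hz⟩).trans (le_abs_self _)⟩

end Vale.Agent.P116.EndP
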