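import Mathlib
import Vale.Agent.P116.KF.H80.A1

/-!
The average of a cutoff of a random conformal map.
-/

open Set Filter Topology Metric Bornology MeasureTheory
open scoped ENNReal

set_option linter.unusedSectionVars false

namespace Vale.Agent.P116.EndP

open H906

/-- a cutoff `χ` with a gradient majorant `κ` -/
structure Cut (χ κ : ℂ → ℝ) : Prop where
  cont : Continuous χ
  nn : ∀ w, 0 ≤ χ w
  le : ∀ w, χ w ≤ 1
  kc : Continuous κ
  knn : ∀ w, 0 ≤ κ w
  kb : ∃ B, ∀ w, κ w ≤ B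
  path : ∀ {γ γ' : ℝ → ℂ}, (∀ s ∈ Icc (0:ℝ) 1, HasDerivAt γ (γ' s) s) →
    ContinuousOn γ' (Icc 0 1) → |χ (γ 1) - χ (γ 0)| ≤ ∫ s in (0:ℝ)..1, κ (γ s) * ‖γ' s‖

variable {Ω : Type*} [TopologicalSpace Ω] [CompactSpace Ω] [MeasurableSpace Ω] [BorelSpace Ω]
  {P : Measure Ω} [IsProbabilityMeasure P] {K : Set ℂ} {G : Ω → ℂ → ℂ} {p : Ω → ℂ} {χ κ : ℂ → ℝ}

/-- the average -/
noncomputable def av (P : Measure Ω) (G : Ω → ℂ → ℂ) (p : Ω → ℂ) (χ : ℂ → ℝ) (z : ℂ) : ℝ :=
  ∫ ω, χ (G ω z - p ω) ∂P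

/-- its gradient majorant -/
noncomputable def rh (P : Measure Ω) (G : Ω → ℂ → ℂ) (p : Ω → ℂ) (κ : ℂ → ℝ) (z : ℂ) : ℝ :=
  ∫ ω, κ (G ω z - p ω) * ‖deriv (G ω) z‖ ∂P

omit [CompactSpace Ω] [MeasurableSpace Ω] [BorelSpace Ω] in
lemma slice (hc : ContinuousOn (fun q : Ω × ℂ => G q.1 q.2) (univ ×ˢ Kᶜ)) {z : ℂ} (hz : z ∈ Kᶜ) :
    Continuous fun ω => G ω z := by
  have h1 : ContinuousOn (fun ω : Ω => G ω z) univ := by
    refine hc.comp (f := fun ω : Ω => (ω, z)) (by fun_prop) ?_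
    intro ω _
    exact ⟨mem_univ _, hz⟩
  exact continuousOn_univ.1 h1

section

variable (hc : ContinuousOn (fun q : Ω × ℂ => G q.1 q.2) (univ ×ˢ Kᶜ)) (hp : Measurable p)
  (hχ : Cut χ κ)

include hc hp

lemma meas_chi (hχ : Continuous χ) {z : ℂ} (hz : z ∈ Kᶜ) : Measurable fun ω => χ (G ω z - p ω) :=
  hχ.measurable.comp ((slice hc hz).measurable.sub hp)

lemma int_chi (hχ : Cut χ κ) {z : ℂ} (hz : z ∈ Kᶜ) : Integrable (fun ω => χ (G ω z - p ω)) P := by
  refine Integrable.of_bound (meas_chi hc hp hχ.cont hz).aestronglyMeasurable 1 ?_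
  refine Eventually.of_forall fun ω => ?_
  rw [Real.norm_of_nonneg (hχ.nn _)]
  exact hχ.le _

lemma av_contOn (hχ : Cut χ κ) (hK : IsClosed K) : ContinuousOn (av P G p χ) Kᶜ := by
  intro z hz
  refine ContinuousAt.continuousWithinAt ?_
  have h1 : ∀ᶠ y in 𝓝 z, y ∈ Kᶜ := hK.isOpen_compl.mem_nhds hz
  refine continuousAt_of_dominated (bound := fun _ => 1) ?_ ?_ (integrable_const _) ?_
  · filter_upwards [h1] with y hy using (meas_chi hc hp hχ.cont hy).aestronglyMeasurable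
  · refine Eventually.of_forall fun y => Eventually.of_forall fun ω => ?_
    rw [Real.norm_of_nonneg (hχ.nn _)]
    exact hχ.le _
  · refine Eventually.of_forall fun ω => ?_
    have h2 : ContinuousAt (fun y => G ω y) z := by
      have h3 : ContinuousOn (fun y => G ω y) Kᶜ := by
        refine hc.comp (f := fun y : ℂ => (ω, y)) (by fun_prop) ?_
        intro y hy
        exact ⟨mem_univ _, hy⟩
      exact h3.continuousAt (hK.isOpen_compl.mem_nhds hz)
    exact hχ.cont.continuousAt.comp (h2.sub continuousAt_const)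

lemma meas_rh (hκ : Continuous κ) (hK : IsClosed K) (hd : ∀ ω, DifferentiableOn ℂ (G ω) Kᶜ) {z : ℂ}
    (hz : z ∈ Kᶜ) : Measurable fun ω => κ (G ω z - p ω) * ‖deriv (G ω) z‖ := by
  have h1 : Continuous fun ω => deriv (G ω) z := by
    have := slice (G := fun ω => deriv (G ω)) (cont_deriv hK hc hd) hz
    exact this
  exact (meas_chi hc hp hκ hz).mul h1.norm.measurable

lemma rh_contOn (hχ : Cut χ κ) (hK : IsClosed K) (hd : ∀ ω, DifferentiableOn ℂ (G ω) Kᶜ) :
    ContinuousOn (rh P G p κ) Kᶜ := by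
  intro z hz
  refine ContinuousAt.continuousWithinAt ?_
  have h1 : ∀ᶠ y in 𝓝 z, y ∈ Kᶜ := hK.isOpen_compl.mem_nhds hz
  obtain ⟨r, hr, hrK⟩ := Metric.nhds_basis_closedBall.mem_iff.1 (hK.isOpen_compl.mem_nhds hz)
  have hcd := cont_deriv hK hc hd
  obtain ⟨B, hB0, hB⟩ := bdd_on hcd (isCompact_closedBall z r) hrK
  obtain ⟨B', hB'⟩ := hχ.kb
  refine continuousAt_of_dominated (bound := fun _ => |B'| * B) ?_ ?_ (integrable_const _) ?_
  · filter_upwards [h1] with y hy using (meas_rh hc hp hχ.kc hK hd hy).aestronglyMeasurable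
  · filter_upwards [closedBall_mem_nhds z hr] with y hy
    refine Eventually.of_forall fun ω => ?_
    rw [norm_mul, Real.norm_of_nonneg (hχ.knn _), norm_norm]
    exact mul_le_mul ((hB' _).trans (le_abs_self _)) (hB ω y hy) (norm_nonneg _) (abs_nonneg _)
  · refine Eventually.of_forall fun ω => ?_
    have h2 : ContinuousAt (fun y => G ω y) z := by
      have h3 : ContinuousOn (fun y => G ω y) Kᶜ := by
        refine hc.comp (f := fun y : ℂ => (ω, y)) (by fun_prop) ?_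
        intro y hy
        exact ⟨mem_univ _, hy⟩
      exact h3.continuousAt (hK.isOpen_compl.mem_nhds hz)
    have h4 : ContinuousAt (fun y => deriv (G ω) y) z := by
      have h3 : ContinuousOn (fun y => deriv (G ω) y) Kᶜ := by
        refine hcd.comp (f := fun y : ℂ => (ω, y)) (by fun_prop) ?_
        intro y hy
        exact ⟨mem_univ _, hy⟩
      exact h3.continuousAt (hK.isOpen_compl.mem_nhds hz)
    exact (hχ.kc.continuousAt.comp (h2.sub continuousAt_const)).mul h4.norm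

omit [TopologicalSpace Ω] [CompactSpace Ω] [BorelSpace Ω] [IsProbabilityMeasure P] hc hp in
lemma rh_nonneg (hχ : Cut χ κ) (z : ℂ) : 0 ≤ rh P G p κ z :=
  integral_nonneg fun _ => mul_nonneg (hχ.knn _) (norm_nonneg _)

/-- the segment inequality -/
theorem av_seg [SecondCountableTopology Ω] (hχ : Cut χ κ) (hK : IsClosed K)
    (hd : ∀ ω, DifferentiableOn ℂ (G ω) Kᶜ) {x y : ℂ} (hxy : segment ℝ x y ⊆ Kᶜ) {m : ℝ}
    (hm : ∀ z ∈ segment ℝ x y, rh P G p κ z ≤ m) :
    |av P G p χ y - av P G p χ x| ≤ ‖y - x‖ * m := by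
  have hcd := cont_deriv hK hc hd
  set γ : ℝ → ℂ := fun s => x + s * (y - x) with hγ
  have hγm : ∀ s ∈ Icc (0:ℝ) 1, γ s ∈ segment ℝ x y := by
    intro s hs
    rw [segment_eq_image_lineMap]
    refine ⟨s, hs, ?_⟩
    simp only [hγ, AffineMap.lineMap_apply, vsub_eq_sub, vadd_eq_add, Complex.real_smul]
    ring
  have hγc : Continuous γ := by fun_prop
  have hγ0 : γ 0 = x := by simp [hγ]
  have hγ1 : γ 1 = y := by simp [hγ]
  have hx : x ∈ Kᶜ := hxy (left_mem_segment ℝ x y)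
  have hy : y ∈ Kᶜ := hxy (right_mem_segment ℝ x y)
  -- pointwise
  set F : Ω → ℝ → ℝ := fun ω s => κ (G ω (γ s) - p ω) * ‖deriv (G ω) (γ s)‖ with hF
  have hpt : ∀ ω, |χ (G ω y - p ω) - χ (G ω x - p ω)| ≤
      ∫ s in (0:ℝ)..1, F ω s * ‖y - x‖ := by
    intro ω
    have h1 := hχ.path (γ := fun s => G ω (γ s) - p ω)
      (γ' := fun s => deriv (G ω) (γ s) * (y - x)) (fun s hs => by
        have h2 : HasDerivAt (G ω) (deriv (G ω) (γ s)) (γ s) :=
          ((hd ω).differentiableAt (hK.isOpen_compl.mem_nhds (hxy (hγm s hs)))).hasDerivAt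
        have h3 : HasDerivAt γ (y - x) s := by
          have h4 : HasDerivAt (fun s : ℝ => (s : ℂ)) 1 s := Complex.ofRealCLM.hasDerivAt
          exact ((h4.mul_const (y - x)).const_add x).congr_deriv (one_mul _)
        exact (h2.comp_of_eq s h3 rfl).sub_const (p ω)) (by
        have h2 : ContinuousOn (fun s => deriv (G ω) (γ s)) (Icc 0 1) :=
          hcd.comp (f := fun s : ℝ => (ω, γ s)) (by fun_prop)
            (fun s hs => ⟨mem_univ _, hxy (hγm s hs)⟩)
        exact h2.mul continuousOn_const)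
    simp only [hγ0, hγ1] at h1
    refine h1.trans (le_of_eq ?_)
    refine intervalIntegral.integral_congr fun s _ => ?_
    simp only [hF, norm_mul]
    ring
  -- joint integrability
  have hsq : IsCompact ((univ : Set Ω) ×ˢ Icc (0:ℝ) 1) := isCompact_univ.prod isCompact_Icc
  have hmap : MapsTo (fun q : Ω × ℝ => (q.1, γ q.2)) (univ ×ˢ Icc (0:ℝ) 1)
      ((univ : Set Ω) ×ˢ Kᶜ) := fun q hq => ⟨mem_univ _, hxy (hγm _ hq.2)⟩
  have hc1 : ContinuousOn (fun q : Ω × ℝ => G q.1 (γ q.2)) (univ ×ˢ Icc 0 1) :=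
    hc.comp (f := fun q : Ω × ℝ => (q.1, γ q.2)) (by fun_prop) hmap
  have hc2 : ContinuousOn (fun q : Ω × ℝ => deriv (G q.1) (γ q.2)) (univ ×ˢ Icc 0 1) :=
    hcd.comp (f := fun q : Ω × ℝ => (q.1, γ q.2)) (by fun_prop) hmap
  have hms : MeasurableSet ((univ : Set Ω) ×ˢ Icc (0:ℝ) 1) :=
    MeasurableSet.univ.prod measurableSet_Icc
  have hFm : AEMeasurable (fun q : Ω × ℝ => F q.1 q.2)
      ((P.prod volume).restrict (univ ×ˢ Icc (0:ℝ) 1)) := by
    have e1 := hc1.aemeasurable (μ := P.prod volume) hms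
    have e2 := hc2.aemeasurable (μ := P.prod volume) hms
    exact (hχ.kc.measurable.comp_aemeasurable
      (e1.sub (hp.comp measurable_fst).aemeasurable)).mul e2.norm
  obtain ⟨B, hB⟩ := hsq.exists_bound_of_continuousOn hc2
  obtain ⟨B', hB'⟩ := hχ.kb
  have hres : (P.prod (volume : Measure ℝ)).restrict (univ ×ˢ Icc (0:ℝ) 1) =
      P.prod (volume.restrict (Icc (0:ℝ) 1)) := by
    rw [← Measure.prod_restrict, Measure.restrict_univ]
  have hFi : Integrable (fun q : Ω × ℝ => F q.1 q.2) (P.prod (volume.restrict (Icc (0:ℝ) 1))) := by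
    refine Integrable.of_bound (by rw [← hres]; exact hFm.aestronglyMeasurable) (|B'| * |B|) ?_
    rw [← hres]
    refine (ae_restrict_iff' hms).2 (Eventually.of_forall fun q hq => ?_)
    simp only [hF]
    rw [norm_mul, Real.norm_of_nonneg (hχ.knn _), norm_norm]
    exact mul_le_mul ((hB' _).trans (le_abs_self _)) ((hB q hq).trans (le_abs_self _))
      (norm_nonneg _) (abs_nonneg _)
  have hi1 := int_chi (P := P) hc hp hχ hx
  have hi2 := int_chi (P := P) hc hp hχ hy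
  have hI : ∀ ω, ∫ s in (0:ℝ)..1, F ω s * ‖y - x‖ = (∫ s in Icc (0:ℝ) 1, F ω s) * ‖y - x‖ := by
    intro ω
    rw [intervalIntegral.integral_of_le zero_le_one, integral_Icc_eq_integral_Ioc,
      integral_mul_const]
  calc |av P G p χ y - av P G p χ x|
      = |∫ ω, (χ (G ω y - p ω) - χ (G ω x - p ω)) ∂P| := by
        rw [av, av, integral_sub hi2 hi1]
    _ ≤ ∫ ω, |χ (G ω y - p ω) - χ (G ω x - p ω)| ∂P := abs_integral_le_integral_abs
    _ ≤ ∫ ω, (∫ s in Icc (0:ℝ) 1, F ω s) * ‖y - x‖ ∂P := by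
        refine integral_mono_of_nonneg (Eventually.of_forall fun _ => abs_nonneg _)
          (hFi.integral_prod_left.mul_const _) (Eventually.of_forall fun ω => ?_)
        have := hpt ω
        rw [hI ω] at this
        exact this
    _ = (∫ ω, (∫ s in Icc (0:ℝ) 1, F ω s) ∂P) * ‖y - x‖ := integral_mul_const _ _
    _ = (∫ s in Icc (0:ℝ) 1, (∫ ω, F ω s ∂P)) * ‖y - x‖ := by
        rw [integral_integral_swap hFi]
    _ ≤ m * ‖y - x‖ := by
        refine mul_le_mul_of_nonneg_right ?_ (norm_nonneg _)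
        have h1 : ∫ s in Icc (0:ℝ) 1, (∫ ω, F ω s ∂P) ≤ ∫ s in Icc (0:ℝ) 1, m := by
          refine setIntegral_mono_on hFi.integral_prod_right (integrable_const _)
            measurableSet_Icc fun s hs => ?_
          exact hm _ (hγm s hs)
        refine h1.trans (le_of_eq ?_)
        simp
    _ = ‖y - x‖ * m := mul_comm _ _

/-- the energy of the majorant -/
theorem rh_energy [SecondCountableTopology Ω] (hχ : Cut χ κ) (hK : IsClosed K)
    (hd : ∀ ω, DifferentiableOn ℂ (G ω) Kᶜ) (hi : ∀ ω, InjOn (G ω) Kᶜ) :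
    ∫⁻ z in Kᶜ, ENNReal.ofReal (rh P G p κ z ^ 2) ≤ ∫⁻ w, ENNReal.ofReal (κ w ^ 2) := by
  have hcd := cont_deriv hK hc hd
  have hKm : MeasurableSet Kᶜ := hK.isOpen_compl.measurableSet
  set f : Ω → ℂ → ℝ := fun ω z => κ (G ω z - p ω) * ‖deriv (G ω) z‖ with hf
  obtain ⟨B', hB'⟩ := hχ.kb
  -- Jensen
  have hJ : ∀ z ∈ Kᶜ, ENNReal.ofReal (rh P G p κ z ^ 2) ≤ ∫⁻ ω, ENNReal.ofReal (f ω z ^ 2) ∂P := by
    intro z hz
    obtain ⟨B, hB0, hB⟩ := bdd_on hcd (isCompact_singleton (x := z)) (singleton_subset_iff.2 hz)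
    have hfm : Measurable fun ω => f ω z := meas_rh hc hp hχ.kc hK hd hz
    have hfb : ∀ ω, ‖f ω z‖ ≤ |B'| * B := by
      intro ω
      simp only [hf]
      rw [norm_mul, Real.norm_of_nonneg (hχ.knn _), norm_norm]
      exact mul_le_mul ((hB' _).trans (le_abs_self _)) (hB ω z rfl) (norm_nonneg _) (abs_nonneg _)
    have hfi : Integrable (fun ω => f ω z) P :=
      Integrable.of_bound hfm.aestronglyMeasurable _ (Eventually.of_forall hfb)
    have hfi2 : Integrable (fun ω => f ω z ^ 2) P := by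
      refine Integrable.of_bound (hfm.pow_const 2).aestronglyMeasurable ((|B'| * B) ^ 2)
        (Eventually.of_forall fun ω => ?_)
      rw [norm_pow]
      exact pow_le_pow_left₀ (norm_nonneg _) (hfb ω) 2
    rw [← ofReal_integral_eq_lintegral_ofReal hfi2 (Eventually.of_forall fun _ => sq_nonneg _)]
    refine ENNReal.ofReal_le_ofReal ?_
    set m := rh P G p κ z with hm
    have hmI : m = ∫ ω, f ω z ∂P := rfl
    have h0 : 0 ≤ ∫ ω, (f ω z - m) ^ 2 ∂P := integral_nonneg fun _ => sq_nonneg _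
    have h1 : ∫ ω, (f ω z - m) ^ 2 ∂P = (∫ ω, f ω z ^ 2 ∂P) - 2 * m * m + m ^ 2 := by
      have e1 : (fun ω => (f ω z - m) ^ 2) = fun ω => f ω z ^ 2 - 2 * m * f ω z + m ^ 2 := by
        funext ω; ring
      have e2 : ∫ ω, (f ω z ^ 2 - 2 * m * f ω z + m ^ 2) ∂P =
          (∫ ω, (f ω z ^ 2 - 2 * m * f ω z) ∂P) + ∫ _ω, m ^ 2 ∂P :=
        integral_add (hfi2.sub (hfi.const_mul _)) (integrable_const _)
      have e3 : ∫ ω, (f ω z ^ 2 - 2 * m * f ω z) ∂P =
          (∫ ω, f ω z ^ 2 ∂P) - ∫ ω, 2 * m * f ω z ∂P := integral_sub hfi2 (hfi.const_mul _)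
      rw [e1, e2, e3, integral_const_mul, ← hmI]
      simp
    rw [h1] at h0
    nlinarith
  -- Tonelli
  have hms : MeasurableSet ((univ : Set Ω) ×ˢ Kᶜ) := MeasurableSet.univ.prod hKm
  have hres : (P.prod (volume : Measure ℂ)).restrict (univ ×ˢ Kᶜ) =
      P.prod (volume.restrict Kᶜ) := by
    rw [← Measure.prod_restrict, Measure.restrict_univ]
  have hFm : AEMeasurable (fun q : Ω × ℂ => ENNReal.ofReal (f q.1 q.2 ^ 2))
      (P.prod (volume.restrict Kᶜ)) := by
    rw [← hres]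
    have e1 := hc.aemeasurable (μ := P.prod volume) hms
    have e2 := hcd.aemeasurable (μ := P.prod volume) hms
    exact (((hχ.kc.measurable.comp_aemeasurable
      (e1.sub (hp.comp measurable_fst).aemeasurable)).mul e2.norm).pow_const 2).ennreal_ofReal
  calc ∫⁻ z in Kᶜ, ENNReal.ofReal (rh P G p κ z ^ 2)
      ≤ ∫⁻ z in Kᶜ, ∫⁻ ω, ENNReal.ofReal (f ω z ^ 2) ∂P := setLIntegral_mono' hKm hJ
    _ = ∫⁻ ω, ∫⁻ z in Kᶜ, ENNReal.ofReal (f ω z ^ 2) ∂volume ∂P :=
        (lintegral_lintegral_swap (f := fun ω z => ENNReal.ofReal (f ω z ^ 2)) hFm).symm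
    _ ≤ ∫⁻ _ω, (∫⁻ w, ENNReal.ofReal (κ w ^ 2)) ∂P := by
        refine lintegral_mono fun ω => ?_
        have h1 := lintegral_image_eq_lintegral_abs_det_fderiv_mul volume hKm
          (f := G ω) (f' := fun z =>
            (ContinuousLinearMap.toSpanSingleton ℂ (deriv (G ω) z)).restrictScalars ℝ)
          (fun z hz => ((((hd ω).differentiableAt
            (hK.isOpen_compl.mem_nhds hz)).hasDerivAt.hasFDerivAt).restrictScalars
              ℝ).hasFDerivWithinAt) (hi ω) (fun w => ENNReal.ofReal (κ (w - p ω) ^ 2))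
        have h2 : ∀ z, ENNReal.ofReal (f ω z ^ 2) = ENNReal.ofReal
            |((ContinuousLinearMap.toSpanSingleton ℂ (deriv (G ω) z)).restrictScalars ℝ :
              ℂ →L[ℝ] ℂ).det| * ENNReal.ofReal (κ (G ω z - p ω) ^ 2) := by
          intro z
          have h3 : |((ContinuousLinearMap.toSpanSingleton ℂ (deriv (G ω) z)).restrictScalars ℝ :
              ℂ →L[ℝ] ℂ).det| = ‖deriv (G ω) z‖ ^ 2 := by
            simp [ContinuousLinearMap.det, LinearMap.det_restrictScalars,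
              Algebra.norm_complex_eq, Complex.normSq_eq_norm_sq]
          rw [h3, ← ENNReal.ofReal_mul (by positivity)]
          congr 1
          simp only [hf]
          ring
        calc ∫⁻ z in Kᶜ, ENNReal.ofReal (f ω z ^ 2)
            = ∫⁻ w in G ω '' Kᶜ, ENNReal.ofReal (κ (w - p ω) ^ 2) := by
              rw [h1]
              exact lintegral_congr fun z => h2 z
          _ ≤ ∫⁻ w, ENNReal.ofReal (κ (w - p ω) ^ 2) := setLIntegral_le_lintegral _ _
          _ = ∫⁻ w, ENNReal.ofReal (κ w ^ 2) :=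
              lintegral_sub_right_eq_self (fun w => ENNReal.ofReal (κ w ^ 2)) (p ω)
    _ = ∫⁻ w, ENNReal.ofReal (κ w ^ 2) := by simp

end

end Vale.Agent.P116.EndP
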