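import Mathlib
import Vale.Agent.P116.KF.H80.A2
import Vale.Agent.P116.H906.Nodes

/-!
Oscillations of the average over nodes and ends.
-/

open Set Filter Topology Metric Bornology MeasureTheory
open scoped ENNReal

set_option linter.unusedSectionVars false

namespace Vale.Agent.P116.EndP

open H906

/-- oscillation of `u` at the end `x` -/
noncomputable def oe (K : Set ℂ) (u : ℂ → ℝ) (x : ℂ) : ℝ := ⨅ n, diam (u '' (nd K n x \ K))

lemma bdd_image {u : ℂ → ℝ} (h0 : ∀ z, 0 ≤ u z) (h1 : ∀ z, u z ≤ 1) (A : Set ℂ) :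
    IsBounded (u '' A) :=
  (Metric.isBounded_Icc (0:ℝ) 1).subset (image_subset_iff.2 fun z _ => ⟨h0 z, h1 z⟩)

lemma diam_le_one {u : ℂ → ℝ} (h0 : ∀ z, 0 ≤ u z) (h1 : ∀ z, u z ≤ 1) (A : Set ℂ) :
    diam (u '' A) ≤ 1 := by
  refine diam_le_of_forall_dist_le zero_le_one ?_
  rintro _ ⟨z, -, rfl⟩ _ ⟨w, -, rfl⟩
  rw [Real.dist_eq, abs_le]
  constructor <;> linarith [h0 z, h1 z, h0 w, h1 w]

lemma anti_diam {K : Set ℂ} {u : ℂ → ℝ} (h0 : ∀ z, 0 ≤ u z) (h1 : ∀ z, u z ≤ 1) (x : ℂ) :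
    Antitone fun n => diam (u '' (nd K n x \ K)) := fun _ _ hnm =>
  diam_mono (image_mono (sdiff_subset_sdiff_left (nd_anti hnm))) (bdd_image h0 h1 _)

lemma bddBelow_diam {K : Set ℂ} {u : ℂ → ℝ} (x : ℂ) :
    BddBelow (range fun n => diam (u '' (nd K n x \ K))) := by
  refine ⟨0, ?_⟩
  rintro _ ⟨n, rfl⟩
  exact diam_nonneg

lemma oe_nonneg (K : Set ℂ) (u : ℂ → ℝ) (x : ℂ) : 0 ≤ oe K u x :=
  le_ciInf fun _ => diam_nonneg

lemma oe_le {K : Set ℂ} {u : ℂ → ℝ} (x : ℂ) (n : ℕ) : oe K u x ≤ diam (u '' (nd K n x \ K)) :=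
  ciInf_le (bddBelow_diam x) n

lemma oe_tendsto {K : Set ℂ} {u : ℂ → ℝ} (h0 : ∀ z, 0 ≤ u z) (h1 : ∀ z, u z ≤ 1) (x : ℂ) :
    Tendsto (fun n => diam (u '' (nd K n x \ K))) atTop (𝓝 (oe K u x)) :=
  tendsto_atTop_ciInf (anti_diam h0 h1 x) (bddBelow_diam x)

lemma oe_le_one {K : Set ℂ} {u : ℂ → ℝ} (h0 : ∀ z, 0 ≤ u z) (h1 : ∀ z, u z ≤ 1) (x : ℂ) :
    oe K u x ≤ 1 := (oe_le x 0).trans (diam_le_one h0 h1 _)

variable {Ω : Type*} [TopologicalSpace Ω] [CompactSpace Ω] [MeasurableSpace Ω] [BorelSpace Ω]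
  {P : Measure Ω} [IsProbabilityMeasure P] {K : Set ℂ} {G : Ω → ℂ → ℂ} {p : Ω → ℂ} {χ κ : ℂ → ℝ}

section

variable (hc : ContinuousOn (fun q : Ω × ℂ => G q.1 q.2) (univ ×ˢ Kᶜ)) (hp : Measurable p)
include hc

omit [CompactSpace Ω] [MeasurableSpace Ω] [BorelSpace Ω] in
lemma slice2 (ω : Ω) : ContinuousOn (G ω) Kᶜ := by
  refine hc.comp (f := fun y : ℂ => (ω, y)) (by fun_prop) ?_
  intro y hy
  exact ⟨mem_univ _, hy⟩

include hp

lemma meas_diam (hχ : Continuous χ) (h0 : ∀ z, 0 ≤ χ z) (h1 : ∀ z, χ z ≤ 1) {A : Set ℂ}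
    (hA : A ⊆ Kᶜ) : Measurable fun ω => diam ((fun z => χ (G ω z - p ω)) '' A) := by
  obtain ⟨D, hDc, hD⟩ := TopologicalSpace.exists_countable_dense A
  refine measurable_of_Iic fun t => ?_
  by_cases ht : 0 ≤ t
  · have h2 : (fun ω => diam ((fun z => χ (G ω z - p ω)) '' A)) ⁻¹' Iic t =
        ⋂ z ∈ D, ⋂ w ∈ D, {ω | dist (χ (G ω z - p ω)) (χ (G ω w - p ω)) ≤ t} := by
      ext ω
      simp only [mem_preimage, mem_Iic, mem_iInter, mem_ofPred_eq]
      constructor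
      · intro h z hz w hw
        exact (dist_le_diam_of_mem (bdd_image (u := fun z => χ (G ω z - p ω))
          (fun _ => h0 _) (fun _ => h1 _) A) ⟨z, z.2, rfl⟩ ⟨w, w.2, rfl⟩).trans h
      · intro h
        refine diam_le_of_forall_dist_le ht ?_
        rintro _ ⟨z, hz, rfl⟩ _ ⟨w, hw, rfl⟩
        have hf : Continuous fun z : A => χ (G ω z - p ω) := by
          have h3 : Continuous fun z : A => G ω z :=
            continuousOn_iff_continuous_domRestrict.1 ((slice2 hc ω).mono hA)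
          exact hχ.comp (h3.sub continuous_const)
        have hcl : IsClosed {q : A × A | dist (χ (G ω q.1 - p ω)) (χ (G ω q.2 - p ω)) ≤ t} :=
          isClosed_le ((hf.comp continuous_fst).dist (hf.comp continuous_snd)) continuous_const
        have hden : Dense (D ×ˢ D) := hD.prod hD
        have h4 := hcl.closure_subset_iff.2 (fun q hq => h q.1 hq.1 q.2 hq.2 : D ×ˢ D ⊆ _)
        exact h4 (hden.closure_eq ▸ mem_univ ((⟨z, hz⟩, ⟨w, hw⟩) : A × A))
    rw [h2]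
    refine MeasurableSet.biInter hDc fun z _ => MeasurableSet.biInter hDc fun w _ => ?_
    exact measurableSet_le ((meas_chi hc hp hχ (hA z.2)).dist (meas_chi hc hp hχ (hA w.2)))
      measurable_const
  · have h2 : (fun ω => diam ((fun z => χ (G ω z - p ω)) '' A)) ⁻¹' Iic t = ∅ := by
      ext ω
      simp only [mem_preimage, mem_Iic, mem_empty_iff_false, iff_false, not_le]
      exact (not_le.1 ht).trans_le diam_nonneg
    rw [h2]
    exact MeasurableSet.empty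

lemma int_diam (hχ : Cut χ κ) {A : Set ℂ} (hA : A ⊆ Kᶜ) :
    Integrable (fun ω => diam ((fun z => χ (G ω z - p ω)) '' A)) P := by
  refine Integrable.of_bound (meas_diam hc hp hχ.cont hχ.nn hχ.le hA).aestronglyMeasurable 1
    (Eventually.of_forall fun ω => ?_)
  rw [Real.norm_of_nonneg diam_nonneg]
  exact diam_le_one (fun _ => hχ.nn _) (fun _ => hχ.le _) A

lemma diam_av (hχ : Cut χ κ) {A : Set ℂ} (hA : A ⊆ Kᶜ) :
    diam (av P G p χ '' A) ≤ ∫ ω, diam ((fun z => χ (G ω z - p ω)) '' A) ∂P := by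
  refine diam_le_of_forall_dist_le (integral_nonneg fun _ => diam_nonneg) ?_
  rintro _ ⟨z, hz, rfl⟩ _ ⟨w, hw, rfl⟩
  have h1 := int_chi (P := P) hc hp hχ (hA hz)
  have h2 := int_chi (P := P) hc hp hχ (hA hw)
  rw [Real.dist_eq, av, av, ← integral_sub h1 h2]
  refine abs_integral_le_integral_abs.trans ?_
  refine integral_mono (h1.sub h2).abs (int_diam hc hp hχ hA) fun ω => ?_
  exact dist_le_diam_of_mem (bdd_image (u := fun z => χ (G ω z - p ω))
          (fun _ => hχ.nn _) (fun _ => hχ.le _) A) ⟨z, hz, rfl⟩ ⟨w, hw, rfl⟩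

lemma meas_oe (hχ : Continuous χ) (h0 : ∀ z, 0 ≤ χ z) (h1 : ∀ z, χ z ≤ 1) (x : ℂ) :
    Measurable fun ω => oe K (fun z => χ (G ω z - p ω)) x :=
  Measurable.iInf fun _ => meas_diam hc hp hχ h0 h1 fun _ hz => hz.2

lemma int_oe (hχ : Cut χ κ) (x : ℂ) :
    Integrable (fun ω => oe K (fun z => χ (G ω z - p ω)) x) P := by
  refine Integrable.of_bound (meas_oe hc hp hχ.cont hχ.nn hχ.le x).aestronglyMeasurable 1
    (Eventually.of_forall fun ω => ?_)
  rw [Real.norm_of_nonneg (oe_nonneg _ _ _)]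
  exact oe_le_one (fun _ => hχ.nn _) (fun _ => hχ.le _) x

lemma int_oe_sq (hχ : Cut χ κ) (x : ℂ) :
    Integrable (fun ω => oe K (fun z => χ (G ω z - p ω)) x ^ 2) P := by
  refine Integrable.of_bound ((meas_oe hc hp hχ.cont hχ.nn hχ.le x).pow_const
    2).aestronglyMeasurable 1 (Eventually.of_forall fun ω => ?_)
  rw [Real.norm_of_nonneg (sq_nonneg _)]
  exact pow_le_one₀ (oe_nonneg _ _ _) (oe_le_one (fun _ => hχ.nn _) (fun _ => hχ.le _) x)

theorem oe_av (hχ : Cut χ κ) (x : ℂ) :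
    oe K (av P G p χ) x ≤ ∫ ω, oe K (fun z => χ (G ω z - p ω)) x ∂P := by
  have h1 : Tendsto (fun n => ∫ ω, diam ((fun z => χ (G ω z - p ω)) '' (nd K n x \ K)) ∂P) atTop
      (𝓝 (∫ ω, oe K (fun z => χ (G ω z - p ω)) x ∂P)) := by
    refine tendsto_integral_of_dominated_convergence (fun _ => 1) (fun n =>
      (meas_diam hc hp hχ.cont hχ.nn hχ.le fun _ hz => hz.2).aestronglyMeasurable)
      (integrable_const _) (fun n => Eventually.of_forall fun ω => ?_)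
      (Eventually.of_forall fun ω => oe_tendsto (fun _ => hχ.nn _) (fun _ => hχ.le _) x)
    rw [Real.norm_of_nonneg diam_nonneg]
    exact diam_le_one (fun _ => hχ.nn _) (fun _ => hχ.le _) _
  refine ge_of_tendsto h1 (Eventually.of_forall fun n => ?_)
  exact (oe_le x n).trans (diam_av hc hp hχ fun _ hz => hz.2)

/-- sums of squares over ends -/
theorem sum_oe_av (hχ : Cut χ κ) (I : Finset ℂ) :
    ∑ x ∈ I, oe K (av P G p χ) x ^ 2 ≤
      ∫ ω, ∑ x ∈ I, oe K (fun z => χ (G ω z - p ω)) x ^ 2 ∂P := by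
  rw [integral_finsetSum _ fun x _ => int_oe_sq hc hp hχ x]
  refine Finset.sum_le_sum fun x _ => ?_
  have h1 := oe_av (P := P) hc hp hχ x
  have h2 := int_oe (P := P) hc hp hχ x
  have h3 := int_oe_sq (P := P) hc hp hχ x
  set m := ∫ ω, oe K (fun z => χ (G ω z - p ω)) x ∂P with hm
  refine (pow_le_pow_left₀ (oe_nonneg _ _ _) h1 2).trans ?_
  set f : Ω → ℝ := fun ω => oe K (fun z => χ (G ω z - p ω)) x with hf
  have h0 : 0 ≤ ∫ ω, (f ω - m) ^ 2 ∂P := integral_nonneg fun _ => sq_nonneg _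
  have e1 : (fun ω => (f ω - m) ^ 2) = fun ω => f ω ^ 2 - 2 * m * f ω + m ^ 2 := by
    funext ω; ring
  have e2 : ∫ ω, (f ω ^ 2 - 2 * m * f ω + m ^ 2) ∂P =
      (∫ ω, (f ω ^ 2 - 2 * m * f ω) ∂P) + ∫ _ω, m ^ 2 ∂P :=
    integral_add (h3.sub (h2.const_mul _)) (integrable_const _)
  have e3 : ∫ ω, (f ω ^ 2 - 2 * m * f ω) ∂P =
      (∫ ω, f ω ^ 2 ∂P) - ∫ ω, 2 * m * f ω ∂P := integral_sub h3 (h2.const_mul _)
  have e4 : ∫ _ω, m ^ 2 ∂P = m ^ 2 := by simp
  rw [e1, e2, e3, e4, integral_const_mul, ← hm] at h0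
  nlinarith

end

end Vale.Agent.P116.EndP
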