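import Mathlib
import Vale.Agent.P116.KF.H80.A3
import Vale.Agent.P116.KF.H80.EndSpec
import Vale.Agent.P116.KF.H903.Chi
import Vale.Agent.P116.KF.H903.Maj

/-!
Oscillations of the cutoff of one map at its ends.
-/

open Set Filter Topology Metric Bornology MeasureTheory
open scoped ENNReal

namespace Vale.Agent.P116.EndP

open H906 G KF.H903

variable {K : Set ℂ} {g : ℂ → ℂ} {x c p : ℂ} {r L : ℝ} {χ : ℂ → ℝ}

/-- `oe` depends only on the component -/
lemma oe_congr_comp (hK : IsCompact K) (hf : Full K) {u : ℂ → ℝ} {x y : ℂ} (hx : x ∈ K)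
    (h : connectedComponentIn K x = connectedComponentIn K y) : oe K u x = oe K u y := by
  have hy : y ∈ connectedComponentIn K x := by
    rw [h]
    have hyK : (connectedComponentIn K y).Nonempty := by
      rw [← h]
      exact ⟨x, mem_connectedComponentIn hx⟩
    exact mem_connectedComponentIn (connectedComponentIn_nonempty_iff.1 hyK)
  have h1 : ∀ n, nd K n x = nd K n y := by
    intro n
    refine (nd_eq ?_).symm
    have h2 : connectedComponentIn K x ⊆ nd K n x :=
      isPreconnected_connectedComponentIn.subset_connectedComponentIn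
        (mem_connectedComponentIn hx) ((connectedComponentIn_subset _ _).trans (subset_lev n))
    exact h2 hy
  simp only [oe, h1]

lemma oe_mono_of_dist {u v : ℂ → ℝ} (h0 : ∀ z, 0 ≤ v z) (h1 : ∀ z, v z ≤ 1)
    (h : ∀ z w, |u z - u w| ≤ |v z - v w|) : oe K u x ≤ oe K v x := by
  refine le_ciInf fun n => (oe_le x n).trans ?_
  refine diam_le_of_forall_dist_le diam_nonneg ?_
  rintro _ ⟨z, hz, rfl⟩ _ ⟨w, hw, rfl⟩
  rw [Real.dist_eq]
  refine (h z w).trans ?_
  rw [← Real.dist_eq]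
  exact dist_le_diam_of_mem (bdd_image h0 h1 _) ⟨z, hz, rfl⟩ ⟨w, hw, rfl⟩

/-- the oscillation at an end is at most the oscillation on the disk -/
theorem oe_le_disk (h : DiskAt K g x c r) (hL : 0 ≤ L) (hχL : ∀ w w', |χ w - χ w'| ≤ L * ‖w - w'‖)
    (h0 : ∀ w, 0 ≤ χ w) (h1 : ∀ w, χ w ≤ 1) :
    oe K (fun z => χ (g z - p)) x ≤ diam ((fun w => χ (w - p)) '' closedBall c r) := by
  refine le_of_forall_pos_le_add fun ε hε => ?_
  set η : ℝ := ε / (2 * (L + 1)) with hη
  have hη0 : 0 < η := by positivity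
  obtain ⟨n, hn⟩ := h.near η hη0
  refine (oe_le x n).trans ?_
  refine diam_le_of_forall_dist_le (add_nonneg diam_nonneg hε.le) ?_
  have hpr : ∀ z ∈ nd K n x \ K, ∃ y ∈ closedBall c r, ‖g z - y‖ ≤ η := by
    intro z hz
    have h2 := hn z hz.1 hz.2
    obtain ⟨y, hy1, hy2⟩ := exists_dist_le_le hη0.le h.nonneg
      (show dist (g z) c ≤ r + η by rw [dist_eq_norm]; exact h2)
    exact ⟨y, hy2, by rwa [dist_eq_norm] at hy1⟩
  rintro _ ⟨z, hz, rfl⟩ _ ⟨w, hw, rfl⟩
  obtain ⟨z', hz', hzz⟩ := hpr z hz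
  obtain ⟨w', hw', hww⟩ := hpr w hw
  have h2 : |χ (z' - p) - χ (w' - p)| ≤ diam ((fun w => χ (w - p)) '' closedBall c r) := by
    rw [← Real.dist_eq]
    exact dist_le_diam_of_mem (bdd_image (u := fun w => χ (w - p)) (fun _ => h0 _) (fun _ => h1 _) _)
      ⟨z', hz', rfl⟩ ⟨w', hw', rfl⟩
  have h3 : |χ (g z - p) - χ (z' - p)| ≤ L * η := by
    refine (hχL _ _).trans ?_
    rw [sub_sub_sub_cancel_right]
    exact mul_le_mul_of_nonneg_left hzz hL
  have h4 : |χ (w' - p) - χ (g w - p)| ≤ L * η := by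
    refine (hχL _ _).trans ?_
    rw [sub_sub_sub_cancel_right, norm_sub_rev]
    exact mul_le_mul_of_nonneg_left hww hL
  have h5 : 2 * (L * η) ≤ ε := by
    rw [hη]
    have e : 2 * (L * (ε / (2 * (L + 1)))) = ε * (L / (L + 1)) := by
      field_simp
    rw [e]
    have : L / (L + 1) ≤ 1 := by
      rw [div_le_one (by linarith)]
      linarith
    nlinarith
  rw [Real.dist_eq]
  calc |χ (g z - p) - χ (g w - p)|
      = |(χ (g z - p) - χ (z' - p)) + (χ (z' - p) - χ (w' - p)) + (χ (w' - p) - χ (g w - p))| := by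
        congr 1; ring
    _ ≤ |χ (g z - p) - χ (z' - p)| + |χ (z' - p) - χ (w' - p)| + |χ (w' - p) - χ (g w - p)| :=
        abs_add_three _ _ _
    _ ≤ diam ((fun w => χ (w - p)) '' closedBall c r) + ε := by linarith

/-- a point end does not oscillate -/
theorem oe_eq_zero (h : DiskAt K g x c 0) (hL : 0 ≤ L) (hχL : ∀ w w', |χ w - χ w'| ≤ L * ‖w - w'‖)
    (h0 : ∀ w, 0 ≤ χ w) (h1 : ∀ w, χ w ≤ 1) : oe K (fun z => χ (g z - p)) x = 0 := by
  refine le_antisymm ((oe_le_disk h hL hχL h0 h1).trans ?_) (oe_nonneg _ _ _)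
  rw [closedBall_zero, image_singleton, diam_singleton]

lemma psi_lip (t : ℝ) (w w' : ℂ) : |psi t w - psi t w'| ≤ Real.exp (t + 1) * ‖w - w'‖ :=
  abs_psi_sub_le t w w'

/-- if `psi t` oscillates at the end then the disk meets the annulus -/
theorem disk_meets {t : ℝ} (h : DiskAt K g x c r)
    (ho : 0 < oe K (fun z => psi t (g z - p)) x) :
    (∃ y ∈ closedBall c r, ‖y - p‖ < Real.exp (-t)) ∧
      ∃ y ∈ closedBall c r, Real.exp (-t - 1) < ‖y - p‖ := by
  have h1 := ho.trans_le (oe_le_disk h (Real.exp_pos _).le (psi_lip t) (psi_nonneg t)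
    (psi_le_one t))
  constructor
  · by_contra hcon
    push Not at hcon
    have h2 : diam ((fun w => psi t (w - p)) '' closedBall c r) = 0 := by
      refine diam_subsingleton ?_
      rintro _ ⟨z, hz, rfl⟩ _ ⟨w, hw, rfl⟩
      simp only [psi_eq_zero (hcon z hz), psi_eq_zero (hcon w hw)]
    linarith
  · by_contra hcon
    push Not at hcon
    have h2 : diam ((fun w => psi t (w - p)) '' closedBall c r) = 0 := by
      refine diam_subsingleton ?_
      rintro _ ⟨z, hz, rfl⟩ _ ⟨w, hw, rfl⟩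
      simp only [psi_eq_one (hcon z hz), psi_eq_one (hcon w hw)]
    linarith

/-- the oscillation of the averaged cutoff -/
theorem oe_chi_le {N : ℕ} {t : ℕ → ℝ} :
    oe K (fun z => chi N t (g z - p)) x ≤
      (∑ i ∈ Finset.range N, oe K (fun z => psi (t i) (g z - p)) x) / N := by
  have h1 : Tendsto (fun n => (∑ i ∈ Finset.range N,
      diam ((fun z => psi (t i) (g z - p)) '' (nd K n x \ K))) / (N:ℝ)) atTop
      (𝓝 ((∑ i ∈ Finset.range N, oe K (fun z => psi (t i) (g z - p)) x) / N)) := by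
    refine Tendsto.div_const (tendsto_finsetSum _ fun i _ => ?_) _
    exact oe_tendsto (fun _ => psi_nonneg _ _) (fun _ => psi_le_one _ _) x
  refine ge_of_tendsto h1 (Eventually.of_forall fun n => (oe_le x n).trans ?_)
  refine diam_le_of_forall_dist_le (div_nonneg (Finset.sum_nonneg fun _ _ => diam_nonneg)
    (Nat.cast_nonneg _)) ?_
  rintro _ ⟨z, hz, rfl⟩ _ ⟨w, hw, rfl⟩
  rw [Real.dist_eq]
  simp only [chi]
  rw [← sub_div, ← Finset.sum_sub_distrib, abs_div, Nat.abs_cast]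
  refine div_le_div_of_nonneg_right ?_ (Nat.cast_nonneg _)
  refine (Finset.abs_sum_le_sum_abs _ _).trans (Finset.sum_le_sum fun i _ => ?_)
  rw [← Real.dist_eq]
  exact dist_le_diam_of_mem (bdd_image (u := fun z => psi (t i) (g z - p))
    (fun _ => psi_nonneg _ _) (fun _ => psi_le_one _ _) _) ⟨z, hz, rfl⟩ ⟨w, hw, rfl⟩

/-- one scale: the sum over ends with disjoint disks -/
theorem sum_oe_psi {I : Finset ℂ} {cc : ℂ → ℂ} {rr : ℂ → ℝ} (t : ℝ)
    (h : ∀ x ∈ I, DiskAt K g x (cc x) (rr x))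
    (hd : ∀ x ∈ I, ∀ y ∈ I, x ≠ y → Disjoint (closedBall (cc x) (rr x)) (closedBall (cc y) (rr y))) :
    ∑ x ∈ I, oe K (fun z => psi t (g z - p)) x ^ 2 ≤ C0 := by
  have h1 : ∀ x ∈ I, oe K (fun z => psi t (g z - p)) x ≤
      diam ((fun w => chi 1 (fun _ => t) (w - p)) '' closedBall (cc x) (rr x)) := by
    intro x hx
    have e : (fun w => chi 1 (fun _ => t) (w - p)) = fun w => psi t (w - p) := by
      funext w
      simp [chi]
    rw [e]
    exact oe_le_disk (h x hx) (Real.exp_pos _).le (psi_lip t) (psi_nonneg t) (psi_le_one t)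
  refine (Finset.sum_le_sum fun x hx => pow_le_pow_left₀ (oe_nonneg _ _ _) (h1 x hx) 2).trans ?_
  exact sum_diam_chi (N := 1) (t := fun _ => t) (a := cc) (r := rr) p
    (fun x hx => (h x hx).nonneg) hd

/-- the sum for the averaged cutoff: always bounded -/
theorem sum_oe_chi {I : Finset ℂ} {cc : ℂ → ℂ} {rr : ℂ → ℝ} {N : ℕ} {t : ℕ → ℝ} (hN : 0 < N)
    (h : ∀ x ∈ I, DiskAt K g x (cc x) (rr x))
    (hd : ∀ x ∈ I, ∀ y ∈ I, x ≠ y → Disjoint (closedBall (cc x) (rr x)) (closedBall (cc y) (rr y))) :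
    ∑ x ∈ I, oe K (fun z => chi N t (g z - p)) x ^ 2 ≤ C0 := by
  have hN' : (0:ℝ) < N := by exact_mod_cast hN
  have h1 : ∀ x ∈ I, oe K (fun z => chi N t (g z - p)) x ^ 2 ≤
      (∑ i ∈ Finset.range N, oe K (fun z => psi (t i) (g z - p)) x ^ 2) / N := by
    intro x _
    refine (pow_le_pow_left₀ (oe_nonneg _ _ _) oe_chi_le 2).trans ?_
    rw [div_pow, div_le_div_iff₀ (by positivity) hN']
    have h2 := sq_sum_le_card_mul_sum_sq (s := Finset.range N)
      (f := fun i => oe K (fun z => psi (t i) (g z - p)) x)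
    rw [Finset.card_range] at h2
    calc (∑ i ∈ Finset.range N, oe K (fun z => psi (t i) (g z - p)) x) ^ 2 * N
        ≤ (N * ∑ i ∈ Finset.range N, oe K (fun z => psi (t i) (g z - p)) x ^ 2) * N := by gcongr
      _ = (∑ i ∈ Finset.range N, oe K (fun z => psi (t i) (g z - p)) x ^ 2) * N ^ 2 := by ring
  calc ∑ x ∈ I, oe K (fun z => chi N t (g z - p)) x ^ 2
      ≤ ∑ x ∈ I, (∑ i ∈ Finset.range N, oe K (fun z => psi (t i) (g z - p)) x ^ 2) / N :=
        Finset.sum_le_sum h1
    _ = (∑ i ∈ Finset.range N, ∑ x ∈ I, oe K (fun z => psi (t i) (g z - p)) x ^ 2) / N := by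
        rw [← Finset.sum_div, Finset.sum_comm]
    _ ≤ (∑ _i ∈ Finset.range N, C0) / N := by
        gcongr with i _
        exact sum_oe_psi (t i) h hd
    _ = C0 := by
        rw [Finset.sum_const, Finset.card_range, nsmul_eq_mul]
        field_simp

/-- the sum for the averaged cutoff: small if each end sees at most one scale -/
theorem sum_oe_chi_good {I : Finset ℂ} {cc : ℂ → ℂ} {rr : ℂ → ℝ} {N : ℕ} {t : ℕ → ℝ} (hN : 0 < N)
    (h : ∀ x ∈ I, DiskAt K g x (cc x) (rr x))
    (hd : ∀ x ∈ I, ∀ y ∈ I, x ≠ y → Disjoint (closedBall (cc x) (rr x)) (closedBall (cc y) (rr y)))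
    (hg : ∀ x ∈ I, ∀ i < N, ∀ j < N, i < j → 0 < oe K (fun z => psi (t i) (g z - p)) x →
      0 < oe K (fun z => psi (t j) (g z - p)) x → False) :
    ∑ x ∈ I, oe K (fun z => chi N t (g z - p)) x ^ 2 ≤ C0 / N := by
  have hN' : (0:ℝ) < N := by exact_mod_cast hN
  have h1 : ∀ x ∈ I, oe K (fun z => chi N t (g z - p)) x ^ 2 ≤
      (∑ i ∈ Finset.range N, oe K (fun z => psi (t i) (g z - p)) x ^ 2) / N ^ 2 := by
    intro x hx
    refine (pow_le_pow_left₀ (oe_nonneg _ _ _) oe_chi_le 2).trans ?_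
    rw [div_pow]
    refine div_le_div_of_nonneg_right ?_ (by positivity)
    by_cases hex : ∃ i ∈ Finset.range N, 0 < oe K (fun z => psi (t i) (g z - p)) x
    · obtain ⟨i, hi, hi0⟩ := hex
      have h3 : ∀ j ∈ Finset.range N, j ≠ i → oe K (fun z => psi (t j) (g z - p)) x = 0 := by
        intro j hj hji
        by_contra hne
        have hj0 : 0 < oe K (fun z => psi (t j) (g z - p)) x :=
          lt_of_le_of_ne (oe_nonneg _ _ _) (Ne.symm hne)
        rcases lt_or_gt_of_ne hji with h4 | h4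
        · exact hg x hx j (Finset.mem_range.1 hj) i (Finset.mem_range.1 hi) h4 hj0 hi0
        · exact hg x hx i (Finset.mem_range.1 hi) j (Finset.mem_range.1 hj) h4 hi0 hj0
      rw [Finset.sum_eq_single i h3 (fun h => absurd hi h), Finset.sum_eq_single i
        (fun j hj hji => by rw [h3 j hj hji]; simp) (fun h => absurd hi h)]
    · push Not at hex
      have h3 : ∀ j ∈ Finset.range N, oe K (fun z => psi (t j) (g z - p)) x = 0 := fun j hj =>
        le_antisymm (hex j hj) (oe_nonneg _ _ _)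
      rw [Finset.sum_eq_zero h3]
      have : ∑ i ∈ Finset.range N, oe K (fun z => psi (t i) (g z - p)) x ^ 2 = 0 :=
        Finset.sum_eq_zero fun j hj => by rw [h3 j hj]; simp
      rw [this]
      simp
  calc ∑ x ∈ I, oe K (fun z => chi N t (g z - p)) x ^ 2
      ≤ ∑ x ∈ I, (∑ i ∈ Finset.range N, oe K (fun z => psi (t i) (g z - p)) x ^ 2) / N ^ 2 :=
        Finset.sum_le_sum h1
    _ = (∑ i ∈ Finset.range N, ∑ x ∈ I, oe K (fun z => psi (t i) (g z - p)) x ^ 2) / N ^ 2 := by
        rw [← Finset.sum_div, Finset.sum_comm]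
    _ ≤ (∑ _i ∈ Finset.range N, C0) / N ^ 2 := by
        gcongr with i _
        exact sum_oe_psi (t i) h hd
    _ = C0 / N := by
        rw [Finset.sum_const, Finset.card_range, nsmul_eq_mul]
        field_simp

/-- the averaged cutoff is a cutoff -/
theorem cut_chi {N : ℕ} {t : ℕ → ℝ} : Cut (chi N t) (kapN N t) where
  cont := continuous_chi
  nn := chi_nonneg
  le := chi_le_one
  kc := continuous_kapN
  knn := kapN_nonneg
  kb := by
    refine ⟨Real.exp ((∑ i ∈ Finset.range N, |t i|) + 1), kapN_le fun i hi => ?_⟩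
    exact (le_abs_self _).trans (Finset.single_le_sum (f := fun i => |t i|)
      (fun _ _ => abs_nonneg _) (Finset.mem_range.2 hi))
  path := by
    intro γ γ' h1 h2
    exact maj_chi.path continuous_kapN kapN_nonneg zero_le_one
      (fun s hs => (h1 s hs).hasDerivWithinAt) h2

/-- a Lipschitz constant -/
lemma chi_lip {N : ℕ} {t : ℕ → ℝ} : ∃ L, 0 ≤ L ∧ ∀ w w', |chi N t w - chi N t w'| ≤ L * ‖w - w'‖ :=
  ⟨Real.exp ((∑ i ∈ Finset.range N, |t i|) + 1), (Real.exp_pos _).le,
    abs_chi_sub_le fun i hi => (le_abs_self _).trans (Finset.single_le_sum (f := fun i => |t i|)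
      (fun _ _ => abs_nonneg _) (Finset.mem_range.2 hi))⟩

end Vale.Agent.P116.EndP
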