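import Mathlib
import Vale.Agent.P116.KF.H80.A4

/-!
The choice of the scales.
-/

set_option linter.unusedSectionVars false

open Set Filter Topology Metric Bornology MeasureTheory
open scoped ENNReal

namespace Vale.Agent.P116.EndP

open H906 G KF.H903

variable {K : Set ℂ}

/-- complementary disks are bounded -/
lemma disk_sub {g : ℂ → ℂ} {x c : ℂ} {r R : ℝ} (hn : NU Kᶜ g) (hR : 0 < R)
    (hKR : K ⊆ closedBall 0 R) (h : DiskAt K g x c r) : closedBall c r ⊆ closedBall 0 (5 * R) := by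
  intro w hw
  rw [mem_closedBall, dist_zero_right]
  refine hn.omitted hR (compl_subset_compl.2 hKR) fun z hz hzw => ?_
  exact h.compl hw ⟨z, fun hzK => hz (hKR hzK), hzw⟩

/-- for one map: far scales are seen by no end which sees the scale `a` -/
theorem far_scales {g : ℂ → ℂ} {p : ℂ} {R : ℝ} (hn : NU Kᶜ g) (hR : 0 < R)
    (hKR : K ⊆ closedBall 0 R) {D : Set ℂ} {cc : ℂ → ℂ} {rr : ℂ → ℝ}
    (hD : ∀ x ∈ D, DiskAt K g x (cc x) (rr x))
    (hdis : ∀ x ∈ D, ∀ y ∈ D, x ≠ y → Disjoint (closedBall (cc x) (rr x)) (closedBall (cc y) (rr y)))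
    (hp : ∀ x ∈ D, p ∉ closedBall (cc x) (rr x)) (a : ℕ) :
    ∀ᶠ n : ℕ in atTop, ∀ x ∈ D, 0 < oe K (fun z => psi (a : ℝ) (g z - p)) x →
      0 < oe K (fun z => psi (n : ℝ) (g z - p)) x → False := by
  classical
  set s₀ : ℝ := Real.exp (-(a : ℝ) - 1) / 4 with hs₀
  have hs₀p : 0 < s₀ := by positivity
  -- finitely many large disks
  have hfin : {x ∈ D | s₀ ≤ rr x}.Finite := by
    by_contra hinf
    have hinf' : {x ∈ D | s₀ ≤ rr x}.Infinite := hinf
    obtain ⟨k, hk⟩ := exists_nat_gt ((5 * R) ^ 2 / s₀ ^ 2)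
    obtain ⟨J, hJ, hJc⟩ := hinf'.exists_subset_card_eq k
    have h1 : ∑ x ∈ J, rr x ^ 2 ≤ (5 * R) ^ 2 :=
      KF.H903.sum_sq_le J cc rr (fun x hx => (hD x (hJ hx).1).nonneg)
        (fun x hx y hy hxy => hdis x (hJ hx).1 y (hJ hy).1 hxy) (by positivity)
        fun x hx => disk_sub hn hR hKR (hD x (hJ hx).1)
    have h2 : (k : ℝ) * s₀ ^ 2 ≤ ∑ x ∈ J, rr x ^ 2 := by
      rw [← hJc, ← nsmul_eq_mul, ← Finset.sum_const]
      exact Finset.sum_le_sum fun x hx => pow_le_pow_left₀ hs₀p.le (hJ hx).2 2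
    rw [div_lt_iff₀ (by positivity)] at hk
    linarith
  -- distance to the centre
  have hdist : ∀ x ∈ {x ∈ D | s₀ ≤ rr x}, ∀ᶠ n : ℕ in atTop,
      ∀ y ∈ closedBall (cc x) (rr x), Real.exp (-(n : ℝ)) ≤ ‖y - p‖ := by
    intro x hx
    have h1 : (closedBall (cc x) (rr x))ᶜ ∈ 𝓝 p :=
      isClosed_closedBall.isOpen_compl.mem_nhds (hp x hx.1)
    obtain ⟨δ, hδ, hδ'⟩ := Metric.mem_nhds_iff.1 h1
    have h2 : Tendsto (fun n : ℕ => Real.exp (-(n : ℝ))) atTop (𝓝 0) :=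
      Real.tendsto_exp_neg_atTop_nhds_zero.comp tendsto_natCast_atTop_atTop
    filter_upwards [h2.eventually (gt_mem_nhds hδ)] with n hn y hy
    by_contra hcon
    rw [not_le] at hcon
    refine hδ' ?_ hy
    rw [mem_ball, dist_eq_norm]
    linarith
  have hall : ∀ᶠ n : ℕ in atTop, ∀ x ∈ {x ∈ D | s₀ ≤ rr x},
      ∀ y ∈ closedBall (cc x) (rr x), Real.exp (-(n : ℝ)) ≤ ‖y - p‖ :=
    (eventually_all_finite hfin).2 hdist
  filter_upwards [hall, eventually_ge_atTop (a + 2)] with n hn1 hn2 x hx h1 h2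
  obtain ⟨-, y₁, hy₁, hy₁'⟩ := disk_meets (hD x hx) h1
  obtain ⟨⟨y₂, hy₂, hy₂'⟩, -⟩ := disk_meets (hD x hx) h2
  have h3 : Real.exp (-(n : ℝ)) ≤ Real.exp (-(a : ℝ) - 1) / 2 := by
    have h4 : -(n : ℝ) ≤ (-(a : ℝ) - 1) + (-1) := by
      have : ((a + 2 : ℕ) : ℝ) ≤ n := by exact_mod_cast hn2
      push_cast at this
      linarith
    refine (Real.exp_le_exp.2 h4).trans ?_
    rw [Real.exp_add]
    have h5 : Real.exp (-1) ≤ 1 / 2 := by
      have := Real.exp_neg_one_lt_half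
      linarith
    have := Real.exp_pos (-(a : ℝ) - 1)
    nlinarith
  have h4 : s₀ ≤ rr x := by
    have h5 : ‖y₁ - y₂‖ ≤ 2 * rr x := by
      rw [mem_closedBall, dist_eq_norm] at hy₁ hy₂
      have := norm_sub_le (y₁ - cc x) (y₂ - cc x)
      rw [sub_sub_sub_cancel_right] at this
      linarith
    have h6 : ‖y₁ - p‖ ≤ ‖y₁ - y₂‖ + ‖y₂ - p‖ := norm_sub_le_norm_sub_add_norm_sub _ _ _
    rw [hs₀]
    linarith
  exact absurd (hn1 x ⟨hx, h4⟩ y₂ hy₂) (not_le.2 hy₂')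

section meas

variable {Ω : Type*} [TopologicalSpace Ω] [CompactSpace Ω] [MeasurableSpace Ω] [BorelSpace Ω]
  {P : Measure Ω} [IsProbabilityMeasure P] {G : Ω → ℂ → ℂ} {p : Ω → ℂ}

/-- the bad event for two scales -/
def bad (K : Set ℂ) (G : Ω → ℂ → ℂ) (p : Ω → ℂ) (D : Set ℂ) (a b : ℕ) : Set Ω :=
  {ω | ∃ x ∈ D, 0 < oe K (fun z => psi (a : ℝ) (G ω z - p ω)) x ∧
    0 < oe K (fun z => psi (b : ℝ) (G ω z - p ω)) x}

lemma meas_bad (hc : ContinuousOn (fun q : Ω × ℂ => G q.1 q.2) (univ ×ˢ Kᶜ)) (hp : Measurable p)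
    {D : Set ℂ} (hD : D.Countable) (a b : ℕ) : MeasurableSet (bad K G p D a b) := by
  have h1 : bad K G p D a b = ⋃ x ∈ D, ({ω | 0 < oe K (fun z => psi (a : ℝ) (G ω z - p ω)) x} ∩
      {ω | 0 < oe K (fun z => psi (b : ℝ) (G ω z - p ω)) x}) := by
    ext ω
    simp only [bad, mem_ofPred_eq, mem_iUnion, mem_inter_iff, exists_prop]
  rw [h1]
  refine MeasurableSet.biUnion hD fun x _ => ?_
  exact (measurableSet_lt measurable_const
    (meas_oe hc hp (continuous_psi _) (psi_nonneg _) (psi_le_one _) x)).inter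
    (measurableSet_lt measurable_const
      (meas_oe hc hp (continuous_psi _) (psi_nonneg _) (psi_le_one _) x))

/-- the scales -/
theorem exists_scales (hc : ContinuousOn (fun q : Ω × ℂ => G q.1 q.2) (univ ×ˢ Kᶜ))
    (hp : Measurable p) {D : Set ℂ} (hD : D.Countable)
    (hfar : ∀ a : ℕ, ∀ᵐ ω ∂P, ∀ᶠ n : ℕ in atTop, ω ∉ bad K G p D a n) {η : ℝ≥0∞} (hη : 0 < η) :
    ∃ t : ℕ → ℕ, ∀ i j, i < j → t i + 3 ≤ t j ∧ P (bad K G p D (t i) (t j)) ≤ η := by
  have h1 : ∀ a : ℕ, ∀ᶠ n : ℕ in atTop, a + 3 ≤ n ∧ P (bad K G p D a n) ≤ η := by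
    intro a
    have h2 : Tendsto (fun n => P (bad K G p D a n)) atTop (𝓝 (P ∅)) := by
      refine tendsto_measure_of_ae_tendsto_indicator_of_isFiniteMeasure atTop MeasurableSet.empty
        (fun n => meas_bad hc hp hD a n) ?_
      filter_upwards [hfar a] with ω hω
      filter_upwards [hω] with n hn
      simp [hn]
    rw [measure_empty] at h2
    filter_upwards [eventually_ge_atTop (a + 3), h2.eventually (ge_mem_nhds hη)] with n h3 h4
    exact ⟨h3, h4⟩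
  obtain ⟨t, -, ht⟩ := exists_seq_of_forall_finset_exists (fun _ : ℕ => True)
    (fun a n => a + 3 ≤ n ∧ P (bad K G p D a n) ≤ η) (fun s _ => by
      obtain ⟨n, hn⟩ := ((Filter.eventually_all_finset s).2 fun a _ => h1 a).exists
      exact ⟨n, trivial, hn⟩)
  exact ⟨t, ht⟩

end meas

end Vale.Agent.P116.EndP
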