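import Mathlib
import Vale.Agent.P116.KF.H80.A5
import Vale.Agent.P116.KF.H694.E2

/-!
(E2): the averaged cutoff at an end which is almost surely a point.
-/

set_option linter.unusedSectionVars false

open Set Filter Topology Metric Bornology MeasureTheory
open scoped ENNReal NNReal

namespace Vale.Agent.P116.EndP

open H906 KF.H903 KB

variable {K : Set ℂ}

lemma nd_eq_of_comp {x y : ℂ} (hx : x ∈ K)
    (h : connectedComponentIn K x = connectedComponentIn K y) (n : ℕ) : nd K n x = nd K n y := by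
  have hy : y ∈ connectedComponentIn K x := by
    rw [h]
    have hyK : (connectedComponentIn K y).Nonempty := by
      rw [← h]
      exact ⟨x, mem_connectedComponentIn hx⟩
    exact mem_connectedComponentIn (connectedComponentIn_nonempty_iff.1 hyK)
  refine (nd_eq ?_).symm
  have h2 : connectedComponentIn K x ⊆ nd K n x :=
    isPreconnected_connectedComponentIn.subset_connectedComponentIn
      (mem_connectedComponentIn hx) ((connectedComponentIn_subset _ _).trans (subset_lev n))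
  exact h2 hy

lemma diskAt_congr {g : ℂ → ℂ} {x y c : ℂ} {r : ℝ} (hx : x ∈ K)
    (h : connectedComponentIn K x = connectedComponentIn K y) (hd : G.DiskAt K g x c r) :
    G.DiskAt K g y c r where
  nonneg := hd.nonneg
  compl := hd.compl
  comp := hd.comp
  near ε hε := by
    obtain ⟨n, hn⟩ := hd.near ε hε
    exact ⟨n, by rw [← nd_eq_of_comp hx h n]; exact hn⟩
  out := hd.out

lemma ptA_congr {Ω : Type} [MeasurableSpace Ω] {P : Measure Ω} {g : Ω → ℂ → ℂ} {x y : ℂ}
    (hx : x ∈ K) (h : connectedComponentIn K x = connectedComponentIn K y) (hp : PtA K P g x) :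
    PtA K P g y := by
  filter_upwards [hp] with ω hω
  obtain ⟨a, ha⟩ := hω
  exact ⟨a, diskAt_congr hx h ha⟩

/-- oscillation over a set as a diameter -/
lemma oscS_eq_diam {u : ℂ → ℝ} (h0 : ∀ z, 0 ≤ u z) (h1 : ∀ z, u z ≤ 1) (A : Set ℂ) :
    oscS K u A = diam (u '' (A \ K)) := by
  rw [oscS, Real.diam_eq (bdd_image h0 h1 _)]

lemma iUnion_nd {x : ℂ} (hx : x ∈ K) (n : ℕ) :
    ⋃ y ∈ connectedComponentIn K x, nd K n y = nd K n x := by
  apply Subset.antisymm
  · refine iUnion₂_subset fun y hy => ?_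
    have h1 : connectedComponentIn K x = connectedComponentIn K y := connectedComponentIn_eq hy
    rw [nd_eq_of_comp hx h1 n]
  · exact subset_iUnion₂_of_subset x (mem_connectedComponentIn hx) Subset.rfl

lemma oscC_eq_oe {u : ℂ → ℝ} (h0 : ∀ z, 0 ≤ u z) (h1 : ∀ z, u z ≤ 1) {x : ℂ} (hx : x ∈ K) :
    oscC K u (connectedComponentIn K x) = oe K u x := by
  unfold oscC oe
  refine iInf_congr fun n => ?_
  rw [iUnion_nd hx, oscS_eq_diam h0 h1]

/-- the centre of a point end is measurable -/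
lemma exists_centre {Ω : Type} [TopologicalSpace Ω] [MeasurableSpace Ω] [BorelSpace Ω]
    {P : Measure Ω} {gg : Ω → ℂ → ℂ} (hK : IsCompact K)
    (hc : ContinuousOn (fun q : Ω × ℂ => gg q.1 q.2) (univ ×ˢ Kᶜ)) {x : ℂ} (hx : x ∈ K)
    (hpt : PtA K P gg x) : ∃ p : Ω → ℂ, Measurable p ∧ ∀ᵐ ω ∂P, G.DiskAt K (gg ω) x (p ω) 0 := by
  choose z hz hzK using fun n => KF.exists_mem_nd_notMem hK hx n
  have hlim : ∀ ω a, G.DiskAt K (gg ω) x a 0 → Tendsto (fun n => gg ω (z n)) atTop (𝓝 a) := by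
    intro ω a ha
    rw [Metric.tendsto_atTop]
    intro ε hε
    obtain ⟨n, hn⟩ := ha.near (ε / 2) (half_pos hε)
    refine ⟨n, fun m hm => ?_⟩
    rw [dist_eq_norm]
    have := hn (z m) (nd_anti hm (hz m)) (hzK m)
    linarith
  obtain ⟨p, hpm, hp⟩ := measurable_limit_of_tendsto_metrizable_ae (μ := P)
    (f := fun n ω => gg ω (z n)) (L := atTop) (fun n => (slice hc (hzK n)).measurable.aemeasurable)
    (by
      filter_upwards [hpt] with ω hω
      obtain ⟨a, ha⟩ := hω
      exact ⟨a, hlim ω a ha⟩)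
  refine ⟨p, hpm, ?_⟩
  filter_upwards [hpt, hp] with ω hω h2
  obtain ⟨a, ha⟩ := hω
  rw [tendsto_nhds_unique h2 (hlim ω a ha)]
  exact ha

/-- **E2** -/
theorem e2 (h1 : Endp1) : E2 := by
  intro K hK hf Par B Ω _ _ P gg 𝔊 h x₀ hx₀ hpt
  classical
  have := h.cpt
  have := h.metr
  have := h.borel
  have := h.prob
  have hsc : SecondCountableTopology Ω := by
    let _ : MetricSpace Ω := TopologicalSpace.metrizableSpaceMetric Ω
    infer_instance
  obtain ⟨R, hR, hRK⟩ := lev_bdd hK 0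
  refine ⟨18 * R + 1, fun ε hε => ?_⟩
  have hKR : K ⊆ closedBall 0 R := (subset_lev 0).trans hRK
  have hKc := hK.isClosed
  have hc := h.cont
  have hd : ∀ ω, DifferentiableOn ℂ (gg ω) Kᶜ := fun ω => (h.nu ω).diff
  have hi : ∀ ω, InjOn (gg ω) Kᶜ := fun ω => (h.nu ω).inj
  -- the centre
  obtain ⟨p₀, hp₀m, hp₀⟩ := exists_centre hK hc hx₀ hpt
  set p : Ω → ℂ := fun ω => if ‖p₀ ω‖ ≤ 5 * R then p₀ ω else 0 with hpdef
  have hpm : Measurable p :=
    Measurable.ite (measurableSet_le hp₀m.norm measurable_const) hp₀m measurable_const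
  have hpb : ∀ ω, ‖p ω‖ ≤ 5 * R := by
    intro ω
    simp only [hpdef]
    split_ifs with h5
    · exact h5
    · rw [norm_zero]; positivity
  have hp : ∀ᵐ ω ∂P, G.DiskAt K (gg ω) x₀ (p ω) 0 := by
    filter_upwards [hp₀] with ω hω
    have h5 := disk_sub (h.nu ω) hR hKR hω (mem_closedBall_self le_rfl)
    rw [mem_closedBall, dist_zero_right] at h5
    simp only [hpdef, if_pos h5]
    exact hω
  -- the massive ends
  set C : Set (Set ℂ) := {c ∈ comps K | ∃ x ∈ c, ¬ PtA K P gg x} with hCdef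
  have hC : C.Countable := h1 hK hf h
  choose! rep hrep hrepn using fun (c : Set ℂ) (hc : c ∈ C) => hc.2
  set D : Set ℂ := rep '' C with hDdef
  have hDc : D.Countable := hC.image rep
  have hcomp : ∀ c ∈ C, rep c ∈ K ∧ connectedComponentIn K (rep c) = c := by
    intro c hc'
    obtain ⟨y, hy, rfl⟩ := hc'.1
    have h2 := hrep _ hc'
    exact ⟨connectedComponentIn_subset _ _ h2, (connectedComponentIn_eq h2).symm⟩
  have hDK : ∀ x ∈ D, x ∈ K := by
    rintro _ ⟨c, hc', rfl⟩
    exact (hcomp c hc').1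
  have hDD : ∀ x ∈ D, ∀ y ∈ D, x ≠ y →
      connectedComponentIn K x ≠ connectedComponentIn K y := by
    rintro _ ⟨c, hc', rfl⟩ _ ⟨c', hc'', rfl⟩ hne h2
    rw [(hcomp c hc').2, (hcomp c' hc'').2] at h2
    exact hne (by rw [h2])
  have hD0 : ∀ x ∈ D, connectedComponentIn K x ≠ connectedComponentIn K x₀ := by
    rintro _ ⟨c, hc', rfl⟩ h2
    exact hrepn c hc' (ptA_congr hx₀ h2.symm hpt)
  have hrepD : ∀ x ∈ K, ¬ PtA K P gg x → ∃ y ∈ D, connectedComponentIn K x =
      connectedComponentIn K y := by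
    intro x hx hnp
    have h2 : connectedComponentIn K x ∈ C :=
      ⟨⟨x, hx, rfl⟩, x, mem_connectedComponentIn hx, hnp⟩
    exact ⟨rep _, ⟨_, h2, rfl⟩, ((hcomp _ h2).2).symm⟩
  -- far scales
  have hgD : ∀ᵐ ω ∂P, ∀ x ∈ D, GoodAt fk K (𝔊 ω : Filter Str) x :=
    (ae_ball_iff hDc).2 fun x hx => h.good x (hDK x hx)
  have hfar : ∀ a : ℕ, ∀ᵐ ω ∂P, ∀ᶠ n : ℕ in atTop, ω ∉ bad K gg p D a n := by
    intro a
    filter_upwards [hgD, h.good x₀ hx₀, hp] with ω h2 h3 h4
    have h5 : ∀ x ∈ D, ∃ c r, G.DiskAt K (gg ω) x c r := by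
      intro x hx
      obtain ⟨c, r, h6, -, -⟩ := G.exists_disk hK hf (h.fine ω) (h.conv ω) (hDK x hx) (h2 x hx)
      exact ⟨c, r, h6⟩
    choose! cc rr hD using h5
    have h6 := far_scales (p := p ω) (h.nu ω) hR hKR hD
      (fun x hx y hy hxy => G.disk_disj hK hf (h.fine ω) (h.conv ω) (hDK x hx) (hDK y hy)
        (hDD x hx y hy hxy) (h2 x hx) (h2 y hy) (hD x hx) (hD y hy))
      (fun x hx hmem => disjoint_left.1 (G.disk_disj hK hf (h.fine ω) (h.conv ω) (hDK x hx) hx₀
        (hD0 x hx) (h2 x hx) h3 (hD x hx) h4) hmem (mem_closedBall_self le_rfl)) a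
    filter_upwards [h6] with n hn
    rintro ⟨x, hx, h7, h8⟩
    exact hn x hx h7 h8
  -- the constants
  have hC0 := C0_pos
  have hC1 := C1_pos
  obtain ⟨N, hN⟩ := exists_nat_gt (max (2 * C0 / ε) (C1 / ε))
  have hN1 := (le_max_left _ _).trans_lt hN
  have hN2 := (le_max_right _ _).trans_lt hN
  have hNr : (0:ℝ) < N := lt_trans (by positivity) hN1
  have hN0 : 0 < N := by exact_mod_cast hNr
  rw [div_lt_iff₀ hε] at hN1 hN2
  set η : ℝ := ε / (2 * C0 * N ^ 2) with hη
  have hη0 : 0 < η := by positivity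
  obtain ⟨t₀, ht₀⟩ := exists_scales (P := P) hc hpm hDc hfar (η := ENNReal.ofReal η)
    (ENNReal.ofReal_pos.2 hη0)
  set t : ℕ → ℝ := fun i => (t₀ i : ℝ) with ht
  have htt : ∀ i j, i < j → t i + 3 ≤ t j := by
    intro i j hij
    have := (ht₀ i j hij).1
    simp only [ht]
    exact_mod_cast this
  have htp : ∀ i, 0 ≤ t i := fun i => Nat.cast_nonneg _
  have hcut : Cut (chi N t) (kapN N t) := cut_chi
  set f : ℂ → ℝ := av P gg p (chi N t) with hfdef
  set ρ : ℂ → ℝ := rh P gg p (kapN N t) with hρdef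
  have hf0 : ∀ z, 0 ≤ f z := fun z => integral_nonneg fun _ => chi_nonneg _
  have hf1 : ∀ z, f z ≤ 1 := by
    intro z
    calc f z ≤ ∫ _ω, (1:ℝ) ∂P :=
          integral_mono_of_nonneg (Eventually.of_forall fun _ => chi_nonneg _)
            (integrable_const _) (Eventually.of_forall fun _ => chi_le_one _)
      _ = 1 := by simp
  -- the bad event
  set J : Finset (ℕ × ℕ) := (Finset.range N ×ˢ Finset.range N).filter fun q => q.1 < q.2 with hJ
  set Bd : Set Ω := ⋃ q ∈ J, bad K gg p D (t₀ q.1) (t₀ q.2) with hBd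
  have hBdm : MeasurableSet Bd :=
    Finset.measurableSet_biUnion _ fun q _ => meas_bad hc hpm hDc _ _
  have hBdP : P.real Bd ≤ N ^ 2 * η := by
    have h2 : P Bd ≤ ENNReal.ofReal (N ^ 2 * η) := by
      calc P Bd ≤ ∑ q ∈ J, P (bad K gg p D (t₀ q.1) (t₀ q.2)) := measure_biUnion_finset_le _ _
        _ ≤ ∑ _q ∈ J, ENNReal.ofReal η := by
            refine Finset.sum_le_sum fun q hq => ?_
            exact (ht₀ q.1 q.2 (Finset.mem_filter.1 hq).2).2
        _ = J.card * ENNReal.ofReal η := by rw [Finset.sum_const, nsmul_eq_mul]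
        _ ≤ ((N ^ 2 : ℕ) : ℝ≥0∞) * ENNReal.ofReal η := by
            gcongr
            calc J.card ≤ (Finset.range N ×ˢ Finset.range N).card := Finset.card_filter_le _ _
              _ = N ^ 2 := by rw [Finset.card_product, Finset.card_range, sq]
        _ = ENNReal.ofReal (N ^ 2 * η) := by
            rw [ENNReal.ofReal_mul (by positivity)]
            congr 1
            rw [← ENNReal.ofReal_natCast]
            push_cast
            rfl
    exact ENNReal.toReal_le_of_le_ofReal (by positivity) h2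
  -- the main bound
  have hmain : ∀ I : Finset ℂ, (∀ x ∈ I, x ∈ K) → (∀ x ∈ I, ∀ y ∈ I, x ≠ y →
      connectedComponentIn K x ≠ connectedComponentIn K y) → ∑ x ∈ I, oe K f x ^ 2 ≤ ε := by
    intro I hI hII
    refine (sum_oe_av hc hpm hcut I).trans ?_
    have hgI : ∀ᵐ ω ∂P, ∀ x ∈ I, GoodAt fk K (𝔊 ω : Filter Str) x :=
      (ae_ball_iff I.countable_toSet).2 fun x hx => h.good x (hI x hx)
    have hpI : ∀ᵐ ω ∂P, ∀ x ∈ I, PtA K P gg x → ∃ a, G.DiskAt K (gg ω) x a 0 := by
      refine (ae_ball_iff I.countable_toSet).2 fun x _ => ?_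
      by_cases h2 : PtA K P gg x
      · filter_upwards [h2] with ω hω _ using hω
      · exact Eventually.of_forall fun ω h3 => absurd h3 h2
    have hae : ∀ᵐ ω ∂P, ∑ x ∈ I, oe K (fun z => chi N t (gg ω z - p ω)) x ^ 2 ≤
        C0 / N + C0 * Bd.indicator (fun _ => (1:ℝ)) ω := by
      filter_upwards [hgI, hpI] with ω h2 h3
      have h5 : ∀ x ∈ I, ∃ c r, G.DiskAt K (gg ω) x c r := by
        intro x hx
        obtain ⟨c, r, h6, -, -⟩ := G.exists_disk hK hf (h.fine ω) (h.conv ω) (hI x hx) (h2 x hx)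
        exact ⟨c, r, h6⟩
      choose! cc rr hD using h5
      have hdis : ∀ x ∈ I, ∀ y ∈ I, x ≠ y →
          Disjoint (closedBall (cc x) (rr x)) (closedBall (cc y) (rr y)) :=
        fun x hx y hy hxy => G.disk_disj hK hf (h.fine ω) (h.conv ω) (hI x hx) (hI y hy)
          (hII x hx y hy hxy) (h2 x hx) (h2 y hy) (hD x hx) (hD y hy)
      by_cases hω : ω ∈ Bd
      · rw [indicator_of_mem hω]
        have h6 := sum_oe_chi (p := p ω) (t := t) hN0 hD hdis
        have h7 : 0 ≤ C0 / N := by positivity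
        linarith
      · rw [indicator_of_notMem hω, mul_zero, add_zero]
        refine sum_oe_chi_good hN0 hD hdis ?_
        intro x hx i hi j hj hij h6 h7
        by_cases hpx : PtA K P gg x
        · obtain ⟨a, ha⟩ := h3 x hx hpx
          have h8 := oe_eq_zero (p := p ω) ha (Real.exp_pos _).le (psi_lip (t i)) (psi_nonneg _)
            (psi_le_one _)
          rw [h8] at h6
          exact lt_irrefl _ h6
        · obtain ⟨y, hy, hxy⟩ := hrepD x (hI x hx) hpx
          rw [oe_congr_comp hK hf (hI x hx) hxy] at h6 h7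
          refine hω (mem_iUnion₂.2 ⟨(i, j), ?_, y, hy, h6, h7⟩)
          rw [hJ, Finset.mem_filter, Finset.mem_product]
          exact ⟨⟨Finset.mem_range.2 hi, Finset.mem_range.2 hj⟩, hij⟩
    have hind : Integrable (Bd.indicator (fun _ => (1:ℝ))) P :=
      (integrable_const (1:ℝ)).indicator hBdm
    calc ∫ ω, ∑ x ∈ I, oe K (fun z => chi N t (gg ω z - p ω)) x ^ 2 ∂P
        ≤ ∫ ω, (C0 / N + C0 * Bd.indicator (fun _ => (1:ℝ)) ω) ∂P :=
          integral_mono_ae (integrable_finsetSum _ fun x _ => int_oe_sq hc hpm hcut x)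
            ((integrable_const _).add (hind.const_mul _)) hae
      _ = C0 / N + C0 * P.real Bd := by
          have e1 : ∫ ω, (C0 / N + C0 * Bd.indicator (fun _ => (1:ℝ)) ω) ∂P =
              (∫ _ω, C0 / N ∂P) + ∫ ω, C0 * Bd.indicator (fun _ => (1:ℝ)) ω ∂P :=
            integral_add (integrable_const _) (hind.const_mul _)
          rw [e1, integral_const_mul, integral_indicator_const _ hBdm]
          simp
      _ ≤ C0 / N + C0 * (N ^ 2 * η) := by gcongr
      _ ≤ ε := by
          have e2 : C0 * (N ^ 2 * η) = ε / 2 := by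
            rw [hη]
            field_simp
          have e3 : C0 / N ≤ ε / 2 := by
            rw [div_le_div_iff₀ hNr two_pos]
            linarith
          rw [e2]
          linarith
  have hen : ∫⁻ z in Kᶜ, ENNReal.ofReal (ρ z ^ 2) ≤ ENNReal.ofReal ε := by
    refine (rh_energy hc hpm hcut hKc hd hi).trans ((lintegral_kapN hN0 htt).trans ?_)
    refine ENNReal.ofReal_le_ofReal ?_
    rw [div_le_iff₀ hNr]
    linarith
  -- sums over components
  have hsum : ∀ s : Finset (Set ℂ), (∀ c ∈ s, c ∈ comps K) → ∑ c ∈ s, oscC K f c ^ 2 ≤ ε := by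
    intro s hs
    choose! pt hptK hptc using hs
    have hinj : ∀ c ∈ s, ∀ c' ∈ s, pt c = pt c' → c = c' := by
      intro c hc' c' hc'' hcc
      rw [← hptc c hc', ← hptc c' hc'', hcc]
    have e1 : ∑ c ∈ s, oscC K f c ^ 2 = ∑ x ∈ s.image pt, oe K f x ^ 2 := by
      rw [Finset.sum_image hinj]
      refine Finset.sum_congr rfl fun c hc' => ?_
      rw [← oscC_eq_oe hf0 hf1 (hptK c hc'), hptc c hc']
    rw [e1]
    refine hmain _ ?_ ?_
    · intro x hx
      obtain ⟨c, hc', rfl⟩ := Finset.mem_image.1 hx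
      exact hptK c hc'
    · intro x hx y hy hxy h2
      obtain ⟨c, hc', rfl⟩ := Finset.mem_image.1 hx
      obtain ⟨c', hc'', rfl⟩ := Finset.mem_image.1 hy
      rw [hptc c hc', hptc c' hc''] at h2
      exact hxy (by rw [h2])
  -- near the end
  have hoe0 : oe K f x₀ = 0 := by
    refine le_antisymm ((oe_av hc hpm hcut x₀).trans ?_) (oe_nonneg _ _ _)
    obtain ⟨L, hL, hL'⟩ := chi_lip (N := N) (t := t)
    have h2 : (fun ω => oe K (fun z => chi N t (gg ω z - p ω)) x₀) =ᵐ[P] fun _ => 0 := by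
      filter_upwards [hp] with ω hω
      exact oe_eq_zero hω hL hL' chi_nonneg chi_le_one
    rw [integral_congr_ae h2]
    simp
  have hnear : ∃ m₀, ∀ z ∈ nd K m₀ x₀, z ∉ K → 1 / 2 ≤ f z := by
    choose z hz hzK using fun n => KF.exists_mem_nd_notMem hK hx₀ n
    have h2 : Tendsto (fun n => f (z n)) atTop (𝓝 (∫ _ω, (1:ℝ) ∂P)) := by
      refine tendsto_integral_of_dominated_convergence (fun _ => 1)
        (fun n => (meas_chi hc hpm continuous_chi (hzK n)).aestronglyMeasurable)
        (integrable_const _) (fun n => Eventually.of_forall fun ω => ?_) ?_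
      · rw [Real.norm_of_nonneg (chi_nonneg _)]
        exact chi_le_one _
      · filter_upwards [hp] with ω hω
        have h3 : Tendsto (fun n => gg ω (z n) - p ω) atTop (𝓝 0) := by
          rw [Metric.tendsto_atTop]
          intro ε' hε'
          obtain ⟨n, hn⟩ := hω.near (ε' / 2) (half_pos hε')
          refine ⟨n, fun m hm => ?_⟩
          rw [dist_zero_right]
          have := hn (z m) (nd_anti hm (hz m)) (hzK m)
          linarith
        have h4 := (continuous_chi (N := N) (t := t)).continuousAt.tendsto.comp h3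
        have h5 : chi N t 0 = 1 := chi_eq_one hN0 fun i _ => by
          rw [norm_zero]; exact (Real.exp_pos _).le
        rw [h5] at h4
        exact h4
    simp only [integral_const, smul_eq_mul, mul_one] at h2
    have h2' : Tendsto (fun n => f (z n)) atTop (𝓝 1) := by simpa using h2
    have h3 := oe_tendsto (K := K) hf0 hf1 x₀
    rw [hoe0] at h3
    obtain ⟨m₀, h4, h5⟩ := ((h2'.eventually (lt_mem_nhds (show (3 / 4 : ℝ) < 1 by norm_num))).and
      (h3.eventually (gt_mem_nhds (show (0:ℝ) < 1 / 4 by norm_num)))).exists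
    refine ⟨m₀, fun y hy hyK => ?_⟩
    have h6 : |f (z m₀) - f y| ≤ diam (f '' (nd K m₀ x₀ \ K)) := by
      rw [← Real.dist_eq]
      exact dist_le_diam_of_mem (bdd_image hf0 hf1 _) ⟨_, ⟨hz m₀, hzK m₀⟩, rfl⟩
        ⟨y, ⟨hy, hyK⟩, rfl⟩
    have h7 := (abs_le.1 h6).2
    linarith
  -- far away
  have hfarz : ∀ z, 18 * R + 1 ≤ ‖z‖ → f z ≤ 0 := by
    intro z hz
    have h2 : ∀ ω, chi N t (gg ω z - p ω) = 0 := by
      intro ω
      refine chi_eq_zero fun i _ => ?_
      have h3 := (h.nu ω).tail hR (compl_subset_compl.2 hKR) (z := z) (by linarith)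
      have h4 : 24 * R ^ 2 / ‖z‖ ≤ 12 * R := by
        rw [div_le_iff₀ (by linarith)]
        nlinarith
      have h5 : ‖z‖ ≤ ‖gg ω z - p ω‖ + ‖gg ω z - z‖ + ‖p ω‖ := by
        have e : z = (gg ω z - p ω) - (gg ω z - z) + p ω := by ring
        calc ‖z‖ = ‖(gg ω z - p ω) - (gg ω z - z) + p ω‖ := by rw [← e]
          _ ≤ ‖(gg ω z - p ω) - (gg ω z - z)‖ + ‖p ω‖ := norm_add_le _ _
          _ ≤ ‖gg ω z - p ω‖ + ‖gg ω z - z‖ + ‖p ω‖ := by
              gcongr
              exact norm_sub_le _ _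
      have h6 : Real.exp (-t i) ≤ 1 := by
        rw [Real.exp_le_one_iff]
        linarith [htp i]
      have h7 := hpb ω
      linarith
    simp only [hfdef, av, h2]
    simp
  refine ⟨f, ρ, ?_, av_contOn hc hpm hcut hKc, fun z _ => ?_, rh_contOn hc hpm hcut hKc hd,
      fun z _ => rh_nonneg hcut z, ?_, hen, hfarz, hnear, hsum⟩
  · obtain ⟨L, hL, hL'⟩ := chi_lip (N := N) (t := t)
    refine ⟨chi N t, ⟨L, hL⟩, p, LipschitzWith.of_dist_le_mul fun w w' => ?_, hpm, ?_,
      fun z _ => rfl⟩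
    · rw [Real.dist_eq, dist_eq_norm]
      exact hL' w w'
    · refine isBounded_iff_forall_norm_le.2 ⟨5 * R, ?_⟩
      rintro _ ⟨ω, rfl⟩
      exact hpb ω
  · rw [abs_of_nonneg (hf0 z)]
    exact hf1 z
  · intro a b hab M hM
    have h2 := av_seg (P := P) hc hpm hcut hKc hd (x := b) (y := a)
      (by rw [segment_symm]; exact hab) (m := M) (by rw [segment_symm]; exact hM)
    rw [mul_comm]
    exact h2

end Vale.Agent.P116.EndP
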