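import Mathlib
import Vale.Agent.P116.KF.Spec
import Vale.Agent.P116.KF.H80.EndSpec

/-!
# END', the averaged cutoff: the literal Prop (E2)
-/

open Set Filter Topology Metric Bornology MeasureTheory

namespace Vale.Agent.P116.EndP

open H906 PBC Slow KF G KB

/-- **E2**: at an end which is almost surely a point there is an averaged cutoff of small energy -/
def E2P : Prop := ∀ {K : Set ℂ} (_ : IsCompact K) (_ : Full K) {Par : Type}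
    {B : Par → ℝ → Set (Set (Set ℂ))} {Ω : Type} [TopologicalSpace Ω] [MeasurableSpace Ω]
    {P : Measure Ω} {gg : Ω → ℂ → ℂ} {𝔊 : Ω → Ultrafilter Str} (_ : G.FSt K B Ω P gg 𝔊)
    {x : ℂ} (_ : x ∈ K) (_ : PtA K P gg x) {ε : ℝ} (_ : 0 < ε),
    ∃ f ρ : ℂ → ℝ, IsAvg K P gg f ∧ (∀ z, 0 ≤ f z) ∧ (∀ z, f z ≤ 1) ∧
      (∀ n, ∀ y ∈ K, Hon K (nd K n y) f ρ) ∧
      ∫⁻ z in Kᶜ, ENNReal.ofReal (ρ z ^ 2) ≤ ENNReal.ofReal ε ∧
      (∃ R', ∀ z, R' ≤ ‖z‖ → f z ≤ 0) ∧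
      (∃ m₀, ∀ m ≥ m₀, ∀ z ∈ nd K m x, z ∉ K → 1 / 2 ≤ f z) ∧
      (Summable fun c : comps K => oscC K f c ^ 2) ∧ ∑' c : comps K, oscC K f c ^ 2 ≤ ε

end Vale.Agent.P116.EndP
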