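import Vale.Agent.P116.KF.H80.A6
import Vale.Agent.P116.KF.H694.EndP
import Vale.Agent.P116.KF.H862.Endp1
import Vale.Agent.P116.KF.H408.Glue

/-!
# END': the final theorem of the block
-/

namespace Vale.Agent.P116.EndP

/-- **END'** -/
theorem endP : KF.EndP := endp_of (e2 endp1) endp1 endp4

end Vale.Agent.P116.EndP
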